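import Vale.Agent.P148.R2.H593.Switch

/-!
# The class relation of an even configuration

Two faces are in the same class if they are on the same loop and are joined by a mod 2 chain which
does not use the occupied sides of the faces of the loop. This is trivially an equivalence relation;
for two different polychromatic faces it is the relation `InA` of the switching lemma.
-/

namespace Vale.Agent.P148.R2.H593

open Equiv

variable {V F : Type*} {T : Tri V F} {Z : Set F} {ω : F × ZMod 3 → ZMod 2}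

/-- `f` meets the chain `q` -/
def Meets (q : F × ZMod 3 → ZMod 2) (f : F) : Prop := ∃ i, q (f, i) = 1

/-- even subchains of `ω` -/
structure SubEven (T : Tri V F) (ω q : F × ZMod 3 → ZMod 2) : Prop where
  cfg : IsCfg T q
  even : ∀ f, par q f = 0
  le : ∀ d, ω d = 0 → q d = 0

/-- two faces are on the same loop of `ω`: every even subchain meets both or none -/
def SameLoop (T : Tri V F) (ω : F × ZMod 3 → ZMod 2) (z o : F) : Prop :=
  ∀ q, SubEven T ω q → (Meets q z ↔ Meets q o)

theorem SameLoop.refl (z : F) : SameLoop T ω z z := fun _ _ => Iff.rfl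

theorem SameLoop.symm {z o : F} (h : SameLoop T ω z o) : SameLoop T ω o z :=
  fun q hq => (h q hq).symm

theorem SameLoop.trans {z o w : F} (h : SameLoop T ω z o) (h' : SameLoop T ω o w) :
    SameLoop T ω z w := fun q hq => (h q hq).trans (h' q hq)

open Classical in
/-- mod 2 indicator of a face -/
noncomputable def dlt (z f : F) : ZMod 2 := if f = z then 1 else 0

theorem dlt_self (z : F) : dlt z z = 1 := by simp [dlt]

theorem dlt_ne {z f : F} (h : f ≠ z) : dlt z f = 0 := by simp [dlt, h]

/-- the class relation -/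
def Rel (T : Tri V F) (ω : F × ZMod 3 → ZMod 2) (z o : F) : Prop :=
  SameLoop T ω z o ∧ ∃ p, IsCfg T p ∧ (∀ f, par p f = dlt z f + dlt o f) ∧
    ∀ f, SameLoop T ω z f → ∀ i, ω (f, i) = 1 → p (f, i) = 0

theorem par_zero (f : F) : par (0 : F × ZMod 3 → ZMod 2) f = 0 := by simp [par]

theorem IsCfg.zero : IsCfg T 0 := ⟨fun _ => rfl, fun _ _ => rfl⟩

theorem Rel.refl (z : F) : Rel T ω z z :=
  ⟨SameLoop.refl z, 0, IsCfg.zero, fun f => by rw [par_zero, z2_add_self], fun _ _ _ _ => rfl⟩

theorem Rel.symm {z o : F} (h : Rel T ω z o) : Rel T ω o z := by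
  obtain ⟨h1, p, hp1, hp2, hp3⟩ := h
  exact ⟨h1.symm, p, hp1, fun f => by rw [hp2, add_comm], fun f hf => hp3 f (h1.trans hf)⟩

theorem Rel.trans {z o w : F} (h : Rel T ω z o) (h' : Rel T ω o w) : Rel T ω z w := by
  obtain ⟨h1, p, hp1, hp2, hp3⟩ := h
  obtain ⟨h1', p', hp1', hp2', hp3'⟩ := h'
  refine ⟨h1.trans h1', p + p', hp1.add hp1', fun f => ?_, fun f hf i hi => ?_⟩
  · rw [par_add, hp2, hp2']
    generalize dlt z f = a
    generalize dlt o f = b
    generalize dlt w f = c
    revert a b c; decide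
  · rw [Pi.add_apply, hp3 f hf i hi, hp3' f (h1.symm.trans hf) i hi, add_zero]

/-- classes of a configuration form a partition -/
def relSetoid (T : Tri V F) (ω : F × ZMod 3 → ZMod 2) : Setoid F :=
  ⟨Rel T ω, Rel.refl, Rel.symm, Rel.trans⟩

/-- an even subchain is constant along strands -/
theorem SubEven.step {q : F × ZMod 3 → ZMod 2} (hq : SubEven T ω q)
    (hev : ∀ f, f ∉ Z → par ω f = 0) (hω : IsCfg T ω) (d : F × ZMod 3) :
    q (step T Z ω d) = q d := by
  change q (turn Z ω (T.opp d)) = q d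
  have h1 : q (T.opp d) = q d := hq.cfg.opp d
  have h2 : ω (T.opp d) = ω d := hω.opp d
  generalize T.opp d = e at h1 h2 ⊢
  by_cases hZ : e.1 ∈ Z
  · rw [turn_of_mem Z ω hZ, h1]
  · rcases z2_cases (ω e) with h0 | h0
    · have : q (turn Z ω e) = 0 := hq.le _ (by rw [omega_turn Z ω, h0])
      rw [this, ← h1, hq.le _ h0]
    · obtain ⟨f, i⟩ := e
      have hpq := hq.even f
      rw [par_eq q f i] at hpq
      rw [← h1]
      rcases even_face (hev f hZ) h0 with ⟨a, b⟩ | ⟨a, b⟩
      · rw [turn_of_one_zero hZ h0 a b]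
        rw [hq.le _ b] at hpq
        revert hpq
        generalize q (f, i) = s
        generalize q (f, i + 1) = t
        revert s t; decide
      · rw [turn_of_zero_one hZ h0 a b]
        rw [hq.le _ a] at hpq
        revert hpq
        generalize q (f, i) = s
        generalize q (f, i + 2) = t
        revert s t; decide

theorem SubEven.strand [Finite F] {q : F × ZMod 3 → ZMod 2} (hq : SubEven T ω q)
    (hev : ∀ f, f ∉ Z → par ω f = 0) (hω : IsCfg T ω) {x y : F × ZMod 3}
    (h : Strand T Z ω x y) : q y = q x := by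
  have hfin : Finite (F × ZMod 3) := inferInstance
  obtain ⟨n, rfl⟩ := Perm.SameCycle.exists_nat_pow_eq h
  clear h
  induction n with
  | zero => simp
  | succ n ih =>
    have : ((H593.step T Z ω) ^ (n + 1)) x = H593.step T Z ω (((H593.step T Z ω) ^ n) x) := by
      rw [pow_succ', Perm.mul_apply]
    rw [this, hq.step hev hω, ih]

/-- a subchain at a face with free side `m` -/
theorem SubEven.face {q : F × ZMod 3 → ZMod 2} (hq : SubEven T ω q) {z : F} {m : ZMod 3}
    (h0 : ω (z, m) = 0) : q (z, m + 1) = q (z, m + 2) := by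
  have hp := hq.even z
  rw [par_eq q z m, hq.le _ h0] at hp
  revert hp
  generalize q (z, m + 1) = s
  generalize q (z, m + 2) = t
  revert s t; decide

theorem SubEven.meets_iff {q : F × ZMod 3 → ZMod 2} (hq : SubEven T ω q) {z : F} {m : ZMod 3}
    (h0 : ω (z, m) = 0) {i : ZMod 3} (hi : i ≠ m) : Meets q z ↔ q (z, i) = 1 := by
  have hf := hq.face h0
  have h0' := hq.le _ h0
  constructor
  · rintro ⟨k, hk⟩
    rcases z3_cases m k with rfl | rfl | rfl
    · rw [h0'] at hk; exact absurd hk (by decide)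
    · rcases z3_cases m i with rfl | rfl | rfl
      · exact absurd rfl hi
      · exact hk
      · rw [← hf]; exact hk
    · rcases z3_cases m i with rfl | rfl | rfl
      · exact absurd rfl hi
      · rw [hf]; exact hk
      · exact hk
  · intro h
    exact ⟨i, h⟩

/-- a face outside `Z` touched by an occupied strand has a free side -/
theorem free_side {f : F} {i : ZMod 3} (hp : par ω f = 0) (hi : ω (f, i) = 1) :
    ∃ m, m ≠ i ∧ ω (f, m) = 0 ∧ ω (f, m + 1) = 1 ∧ ω (f, m + 2) = 1 := by
  rcases even_face hp hi with ⟨h1, h2⟩ | ⟨h1, h2⟩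
  · exact ⟨i + 2, z3_ne2 i, h2, by rw [z3_21]; exact hi, by rw [z3_22]; exact h1⟩
  · exact ⟨i + 1, z3_ne1 i, h1, by rw [z3_11]; exact h2, by rw [z3_12]; exact hi⟩

variable {z o : F} {m j : ZMod 3}

/-- a face on a strand starting at an occupied side of `z` is on the loop of `z` -/
theorem sameLoop_of_strand [Finite F] (hω : IsCfg T ω) (hev : ∀ f, par ω f = 0)
    (h0 : ω (z, m) = 0) {a : ZMod 3} (ha : a ≠ m) (ha1 : ω (z, a) = 1) {f : F} {i : ZMod 3}
    (hs : Strand T Z ω (z, a) (f, i)) : SameLoop T ω z f := by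
  intro q hq
  have h1 : ω (f, i) = 1 := by rw [hs.omega hω.opp, ha1]
  obtain ⟨m', hm', hf0, -, -⟩ := free_side (hev f) h1
  rw [hq.meets_iff h0 ha, hq.meets_iff hf0 hm'.symm, hq.strand (fun f _ => hev f) hω hs]

/-- in `InA`, the second strand is also linked -/
theorem InA.link2 [Finite F] (hzo : z ≠ o) (h : InA T z o m j ω) :
    ∃ k, Strand T {z, o} ω (z, m + 2) (o, k) := by
  have heven0 : ∀ f, f ∉ ({z, o} : Set F) → par ω f = 0 := fun f _ => h.even f
  obtain ⟨k1, hk1⟩ := h.link
  apply link_of_not h.cfg heven0 h.z2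
  intro b hb hb1 hs
  rcases z3_cases m b with rfl | rfl | rfl
  · rw [h.z0] at hb1; exact absurd hb1 (by decide)
  · rcases linked_uniq hzo h.cfg heven0 h.z1 hk1 mem_z hs.symm with h2 | h2
    · exact z3_ne12 m (congrArg Prod.snd h2).symm
    · exact hzo (congrArg Prod.fst h2)
  · exact hb rfl

/-- the two strands together are an even subchain -/
theorem InA.subEven [Finite F] (hzo : z ≠ o) (h : InA T z o m j ω) :
    SubEven T ω (ind T {z, o} ω (z, m + 1) + ind T {z, o} ω (z, m + 2)) := by
  have heven0 : ∀ f, f ∉ ({z, o} : Set F) → par ω f = 0 := fun f _ => h.even f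
  obtain ⟨k1, hk1⟩ := h.link
  obtain ⟨k2, hk2⟩ := h.link2 hzo
  have zz1 : ∀ c : ZMod 3, c ≠ m + 1 → ind T {z, o} ω (z, m + 1) (z, c) = 0 := by
    intro c hcb
    rw [ind_eq_zero]
    intro hc
    rcases linked_uniq hzo h.cfg heven0 h.z1 hk1 mem_z hc with h2 | h2
    · exact hcb (congrArg Prod.snd h2)
    · exact hzo (congrArg Prod.fst h2)
  have zz2 : ∀ c : ZMod 3, c ≠ m + 2 → ind T {z, o} ω (z, m + 2) (z, c) = 0 := by
    intro c hcb
    rw [ind_eq_zero]
    intro hc
    rcases linked_uniq hzo h.cfg heven0 h.z2 hk2 mem_z hc with h2 | h2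
    · exact hcb (congrArg Prod.snd h2)
    · exact hzo (congrArg Prod.fst h2)
  have zo1 : ∀ c : ZMod 3, c ≠ k1 → ind T {z, o} ω (z, m + 1) (o, c) = 0 := by
    intro c hcb
    rw [ind_eq_zero]
    intro hc
    rcases linked_uniq hzo h.cfg heven0 h.z1 hk1 mem_o hc with h2 | h2
    · exact hzo (congrArg Prod.fst h2).symm
    · exact hcb (congrArg Prod.snd h2)
  have zo2 : ∀ c : ZMod 3, c ≠ k2 → ind T {z, o} ω (z, m + 2) (o, c) = 0 := by
    intro c hcb
    rw [ind_eq_zero]
    intro hc
    rcases linked_uniq hzo h.cfg heven0 h.z2 hk2 mem_o hc with h2 | h2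
    · exact hzo (congrArg Prod.fst h2).symm
    · exact hcb (congrArg Prod.snd h2)
  have i11 : ind T {z, o} ω (z, m + 1) (z, m + 1) = 1 := ind_eq_one.2 (Strand.refl _)
  have i22 : ind T {z, o} ω (z, m + 2) (z, m + 2) = 1 := ind_eq_one.2 (Strand.refl _)
  have o11 : ind T {z, o} ω (z, m + 1) (o, k1) = 1 := ind_eq_one.2 hk1
  have o22 : ind T {z, o} ω (z, m + 2) (o, k2) = 1 := ind_eq_one.2 hk2
  refine ⟨(ind_isCfg h.cfg mem_z h.z1).add (ind_isCfg h.cfg mem_z h.z2), ?_, ?_⟩
  · intro f
    by_cases hf : f ∈ ({z, o} : Set F)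
    · rcases hf with rfl | hf
      · rw [par_add, par_eq _ f m, par_eq _ f m, i11, i22, zz1 _ (z3_ne1 m).symm,
          zz1 _ (z3_ne12 m).symm, zz2 _ (z3_ne2 m).symm, zz2 _ (z3_ne12 m)]
        decide
      · rw [Set.mem_singleton_iff.1 hf]
        rw [par_add, par_eq _ o k1, par_eq _ o k2, o11, o22, zo1 _ (z3_ne1 k1), zo1 _ (z3_ne2 k1),
          zo2 _ (z3_ne1 k2), zo2 _ (z3_ne2 k2)]
        decide
    · rw [par_add, par_ind h.cfg heven0 mem_z h.z1 hf, par_ind h.cfg heven0 mem_z h.z2 hf]
      decide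
  · intro d hd
    rw [Pi.add_apply, ind_supp h.cfg h.z1 hd, ind_supp h.cfg h.z2 hd]
    decide

theorem InA.rel [Finite F] (hzo : z ≠ o) (h : InA T z o m j ω) : Rel T ω z o := by
  obtain ⟨k1, hk1⟩ := h.link
  have hsl : SameLoop T ω z o := sameLoop_of_strand h.cfg h.even h.z0 (z3_ne1 m) h.z1 hk1
  obtain ⟨p, hp⟩ := h.bridge
  refine ⟨hsl, p, hp.cfg, ?_, ?_⟩
  · intro f
    by_cases hf : f ∈ ({z, o} : Set F)
    · rcases hf with rfl | hf
      · rw [par_eq _ f m, hp.z0, hp.z1, hp.z2, dlt_self, dlt_ne hzo]; decide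
      · rw [Set.mem_singleton_iff.1 hf]
        rw [par_eq _ o j, hp.o0, hp.o1, hp.o2, dlt_self, dlt_ne hzo.symm]; decide
    · have h1 : f ≠ z := fun e => hf (by rw [e]; exact mem_z)
      have h2 : f ≠ o := fun e => hf (by rw [e]; exact mem_o)
      rw [hp.even f hf, dlt_ne h1, dlt_ne h2]; decide
  · intro f hf i hi
    by_cases hfZ : f ∈ ({z, o} : Set F)
    · rcases hfZ with rfl | hfZ
      · rcases z3_cases m i with rfl | rfl | rfl
        · rw [h.z0] at hi; exact absurd hi (by decide)
        · exact hp.z1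
        · exact hp.z2
      · have hfo := Set.mem_singleton_iff.1 hfZ
        subst hfo
        rcases z3_cases j i with rfl | rfl | rfl
        · rw [h.o0] at hi; exact absurd hi (by decide)
        · exact hp.o1
        · exact hp.o2
    · apply hp.avoid f hfZ
      have hq := h.subEven hzo
      have hm := (hf _ hq).1 ⟨m + 1, by
        rcases z2_cases ((ind T {z, o} ω (z, m + 1) + ind T {z, o} ω (z, m + 2)) (z, m + 1))
          with h0 | h0
        · exfalso
          have e1 : ind T {z, o} ω (z, m + 1) (z, m + 1) = 1 := ind_eq_one.2 (Strand.refl _)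
          have e2 : ind T {z, o} ω (z, m + 2) (z, m + 1) = 0 := by
            rw [ind_eq_zero]
            intro hc
            obtain ⟨k2, hk2⟩ := h.link2 hzo
            rcases linked_uniq hzo h.cfg (fun f _ => h.even f) h.z2 hk2 mem_z hc with h2 | h2
            · exact z3_ne12 m (congrArg Prod.snd h2)
            · exact hzo (congrArg Prod.fst h2)
          rw [Pi.add_apply, e1, e2] at h0
          exact absurd h0 (by decide)
        · exact h0⟩
      obtain ⟨k, hk⟩ := hm
      refine ⟨k, ?_⟩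
      by_contra hc
      unfold gam at hc
      rw [Set.mem_ofPred_eq, not_or] at hc
      rw [Pi.add_apply, ind_eq_zero.2 hc.1, ind_eq_zero.2 hc.2] at hk
      exact absurd hk (by decide)

theorem InA.of_rel [Finite F] (hzo : z ≠ o) (hω : IsCfg T ω) (hev : ∀ f, par ω f = 0)
    (z0 : ω (z, m) = 0) (z1 : ω (z, m + 1) = 1) (z2 : ω (z, m + 2) = 1)
    (o0 : ω (o, j) = 0) (o1 : ω (o, j + 1) = 1) (o2 : ω (o, j + 2) = 1) (h : Rel T ω z o) :
    InA T z o m j ω := by
  obtain ⟨hsl, p, hp1, hp2, hp3⟩ := h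
  have heven0 : ∀ f, f ∉ ({z, o} : Set F) → par ω f = 0 := fun f _ => hev f
  have hlink : ∃ k, Strand T {z, o} ω (z, m + 1) (o, k) := by
    obtain ⟨y, hyx, hyZ, hxy, huniq, -⟩ := partner hω heven0 (x := (z, m + 1)) mem_z z1
    have hy1 : ω y = 1 := by rw [hxy.omega hω.opp, z1]
    obtain ⟨f, b⟩ := y
    rcases hyZ with h1 | h1
    · change f = z at h1
      subst h1
      exfalso
      have hb : b = m + 2 := by
        rcases z3_cases m b with rfl | rfl | rfl
        · rw [z0] at hy1; exact absurd hy1 (by decide)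
        · exact absurd rfl hyx
        · rfl
      subst hb
      -- the indicator is an even subchain which does not meet `o`
      have hno : ∀ k, ind T {f, o} ω (f, m + 1) (o, k) = 0 := by
        intro k
        rw [ind_eq_zero]
        intro hc
        rcases huniq _ hc mem_o with h2 | h2
        · exact hzo (congrArg Prod.fst h2).symm
        · exact hzo (congrArg Prod.fst h2).symm
      have hz0 : ind T {f, o} ω (f, m + 1) (f, m) = 0 := by
        rw [ind_eq_zero]
        intro hc
        rcases huniq _ hc mem_z with h2 | h2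
        · exact (z3_ne1 m).symm (congrArg Prod.snd h2)
        · exact (z3_ne2 m).symm (congrArg Prod.snd h2)
      have hz1 : ind T {f, o} ω (f, m + 1) (f, m + 1) = 1 := ind_eq_one.2 (Strand.refl _)
      have hz2 : ind T {f, o} ω (f, m + 1) (f, m + 2) = 1 := ind_eq_one.2 hxy
      have hq : SubEven T ω (ind T {f, o} ω (f, m + 1)) := by
        refine ⟨ind_isCfg hω mem_z z1, ?_, fun d hd => ind_supp hω z1 hd⟩
        intro g
        by_cases hg : g ∈ ({f, o} : Set F)
        · rcases hg with rfl | hg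
          · rw [par_eq _ g m, hz0, hz1, hz2]; decide
          · rw [Set.mem_singleton_iff.1 hg, par_eq _ o 0, hno, hno, hno]; decide
        · exact par_ind hω heven0 mem_z z1 hg
      obtain ⟨k, hk⟩ := (hsl _ hq).1 ⟨m + 1, hz1⟩
      rw [hno k] at hk
      exact absurd hk (by decide)
    · change f = o at h1
      subst h1
      exact ⟨b, hxy⟩
  have hgz : ∀ f i, (f, i) ∈ gam T z o m ω → SameLoop T ω z f := by
    rintro f i (hi | hi)
    · exact sameLoop_of_strand hω hev z0 (z3_ne1 m) z1 hi
    · exact sameLoop_of_strand hω hev z0 (z3_ne2 m) z2 hi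
  have hgo : ∀ f i, (f, i) ∈ gam T z o m ω → ω (f, i) = 1 := by
    rintro f i (hi | hi)
    · rw [hi.omega hω.opp, z1]
    · rw [hi.omega hω.opp, z2]
  have pz1 : p (z, m + 1) = 0 := hp3 z (SameLoop.refl z) _ z1
  have pz2 : p (z, m + 2) = 0 := hp3 z (SameLoop.refl z) _ z2
  have po1 : p (o, j + 1) = 0 := hp3 o hsl _ o1
  have po2 : p (o, j + 2) = 0 := hp3 o hsl _ o2
  have pz0 : p (z, m) = 1 := by
    have := hp2 z
    rw [par_eq _ z m, pz1, pz2, dlt_self, dlt_ne hzo] at this
    simpa using this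
  have po0 : p (o, j) = 1 := by
    have := hp2 o
    rw [par_eq _ o j, po1, po2, dlt_self, dlt_ne hzo.symm] at this
    simpa using this
  refine ⟨hω, hev, z0, z1, z2, o0, o1, o2, hlink, p, hp1, ?_, pz0, pz1, pz2, po0, po1, po2, ?_⟩
  · intro f hf
    have h1 : f ≠ z := fun e => hf (by rw [e]; exact mem_z)
    have h2 : f ≠ o := fun e => hf (by rw [e]; exact mem_o)
    rw [hp2, dlt_ne h1, dlt_ne h2, add_zero]
  · rintro f hf ⟨i, hi⟩ k
    have hs := hgz f i hi
    have h1 := hgo f i hi
    obtain ⟨m', hm', hf0, hf1, hf2⟩ := free_side (hev f) h1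
    have q1 := hp3 f hs _ hf1
    have q2 := hp3 f hs _ hf2
    have h3 : f ≠ z := fun e => hf (by rw [e]; exact mem_z)
    have h4 : f ≠ o := fun e => hf (by rw [e]; exact mem_o)
    have q0 : p (f, m') = 0 := by
      have := hp2 f
      rw [par_eq _ f m', q1, q2, dlt_ne h3, dlt_ne h4] at this
      simpa using this
    rcases z3_cases m' k with rfl | rfl | rfl
    · exact q0
    · exact q1
    · exact q2

end Vale.Agent.P148.R2.H593
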