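import Vale.Agent.P148.R2.H593.Class

/-!
# Colourings: colour switching, white noise and the energy identity
-/

namespace Vale.Agent.P148.R2.H593

open Equiv

variable {V F : Type*} {T : Tri V F} {Z : Set F} {ω : F × ZMod 3 → ZMod 2}

/-- the interfaces of a colouring -/
def cut (T : Tri V F) (c : V → ZMod 2) : F × ZMod 3 → ZMod 2 :=
  fun d => c (T.vert d.1 (d.2 + 1)) + c (T.vert d.1 (d.2 + 2))

theorem cut_isCfg (T : Tri V F) (c : V → ZMod 2) : IsCfg T (cut T c) := by
  refine ⟨fun d => ?_, fun d hd => ?_⟩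
  · unfold cut
    rw [T.vert_opp_one, T.vert_opp_two, add_comm]
  · unfold cut
    rw [hd, z2_add_self]

theorem par_cut (T : Tri V F) (c : V → ZMod 2) (f : F) : par (cut T c) f = 0 := by
  rw [par_eq _ f 0]
  unfold cut
  have h1 : (0 : ZMod 3) + 1 + 1 = 0 + 2 := by decide
  have h2 : (0 : ZMod 3) + 1 + 2 = 0 := by decide
  have h3 : (0 : ZMod 3) + 2 + 1 = 0 := by decide
  have h4 : (0 : ZMod 3) + 2 + 2 = 0 + 1 := by decide
  simp only [h1, h2, h3, h4]
  generalize c (T.vert f (0 + 1)) = x
  generalize c (T.vert f (0 + 2)) = y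
  generalize c (T.vert f 0) = w
  revert x y w; decide

/-- the minority corner of the face `z` is `m` (the two other corners are equal) -/
def Min (ω : F × ZMod 3 → ZMod 2) (z : F) (m : ZMod 3) : Prop :=
  ω (z, m) = 0 ∧ ω (z, m + 1) = 1 ∧ ω (z, m + 2) = 1

theorem Min.uniq {z : F} {m m' : ZMod 3} (h : Min ω z m) (h' : Min ω z m') : m = m' := by
  obtain ⟨a0, a1, a2⟩ := h
  obtain ⟨b0, b1, b2⟩ := h'
  rcases z3_cases m m' with rfl | rfl | rfl
  · rfl
  · rw [a1] at b0; exact absurd b0 (by decide)
  · rw [a2] at b0; exact absurd b0 (by decide)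

theorem min_of_meets {f : F} (hp : par ω f = 0) (h : Meets ω f) : ∃ m, Min ω f m := by
  obtain ⟨i, hi⟩ := h
  obtain ⟨m, -, h0, h1, h2⟩ := free_side hp hi
  exact ⟨m, h0, h1, h2⟩

theorem Min.meets {z : F} {m : ZMod 3} (h : Min ω z m) : Meets ω z := ⟨m + 1, h.2.1⟩

variable {z o : F} {m j : ZMod 3}

theorem inA_iff [Finite F] (hzo : z ≠ o) :
    InA T z o m j ω ↔ IsCfg T ω ∧ (∀ f, par ω f = 0) ∧ Rel T ω z o ∧ Min ω z m ∧ Min ω o j := by
  constructor
  · intro h
    exact ⟨h.cfg, h.even, h.rel hzo, ⟨h.z0, h.z1, h.z2⟩, ⟨h.o0, h.o1, h.o2⟩⟩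
  · rintro ⟨h1, h2, h3, h4, h5⟩
    exact InA.of_rel hzo h1 h2 h4.1 h4.2.1 h4.2.2 h5.1 h5.2.1 h5.2.2 h3

/-- colourings with a prescribed colour at one vertex correspond to even configurations -/
noncomputable def colEquiv (T : Tri V F) (v : V) (a : ZMod 2) :
    {c : V → ZMod 2 // c v = a} ≃
      {ω : F × ZMod 3 → ZMod 2 // IsCfg T ω ∧ ∀ f, par ω f = 0} :=
  Equiv.ofBijective (fun c => ⟨cut T c.1, cut_isCfg T c.1, par_cut T c.1⟩) (by
    constructor
    · rintro ⟨c, hc⟩ ⟨c', hc'⟩ h
      have h1 : cut T c = cut T c' := congrArg Subtype.val h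
      have h2 := T.conn (c + c') (fun f i => by
        have := congrFun h1 (f, i)
        unfold cut at this
        simp only at this
        simp only [Pi.add_apply]
        revert this
        generalize c (T.vert f (i + 1)) = x
        generalize c (T.vert f (i + 2)) = y
        generalize c' (T.vert f (i + 1)) = x'
        generalize c' (T.vert f (i + 2)) = y'
        revert x y x' y'; decide)
      apply Subtype.ext
      funext u
      have h3 := h2 u v
      simp only [Pi.add_apply, hc, hc'] at h3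
      change c u = c' u
      revert h3
      generalize c u = x
      generalize c' u = y
      clear h h1 h2 hc hc'
      revert x y a; decide
    · rintro ⟨ω, h1, h2⟩
      obtain ⟨c, hc⟩ := T.planar ω h1.opp h1.loop h2
      refine ⟨⟨fun u => c u + (c v + a), ?_⟩, ?_⟩
      · simp only
        generalize c v = x
        revert x a; decide
      · apply Subtype.ext
        funext d
        obtain ⟨f, i⟩ := d
        simp only [cut]
        rw [hc f i]
        generalize c (T.vert f (i + 1)) = x
        generalize c (T.vert f (i + 2)) = y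
        generalize c v + a = w
        revert x y w; decide)

theorem colEquiv_apply (v : V) (a : ZMod 2) (c : {c : V → ZMod 2 // c v = a}) :
    ((colEquiv T v a) c).1 = cut T c.1 := rfl

/-- counting colourings with a prescribed colour at one vertex -/
theorem card_col (T : Tri V F) (v : V) (a : ZMod 2) (P : (F × ZMod 3 → ZMod 2) → Prop) :
    Nat.card {c : V → ZMod 2 // c v = a ∧ P (cut T c)} =
      Nat.card {ω : F × ZMod 3 → ZMod 2 // (IsCfg T ω ∧ ∀ f, par ω f = 0) ∧ P ω} := by
  apply Nat.card_congr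
  refine (Equiv.subtypeSubtypeEquivSubtypeInter (fun c : V → ZMod 2 => c v = a)
    (fun c => P (cut T c))).symm.trans ?_
  refine Equiv.trans ?_ (Equiv.subtypeSubtypeEquivSubtypeInter
    (fun ω : F × ZMod 3 → ZMod 2 => IsCfg T ω ∧ ∀ f, par ω f = 0) P)
  exact (colEquiv T v a).subtypeEquiv (fun c => by rw [colEquiv_apply])

/-- **Colour switching for colourings**, one vertex coloured in advance. `v`, `v'` arbitrary. -/
theorem card_switch [Finite F] (T : Tri V F) (hzo : z ≠ o) (m j : ZMod 3) (v v' : V)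
    (a a' : ZMod 2) :
    Nat.card {c : V → ZMod 2 // c v = a ∧
      (Rel T (cut T c) z o ∧ Min (cut T c) z m ∧ Min (cut T c) o j)} =
    Nat.card {c : V → ZMod 2 // c v' = a' ∧
      (Rel T (cut T c) z o ∧ Min (cut T c) z (m + 1) ∧ Min (cut T c) o (j + 2))} := by
  have key : ∀ (w : V) (b : ZMod 2) (m j : ZMod 3),
      Nat.card {c : V → ZMod 2 // c w = b ∧
        (Rel T (cut T c) z o ∧ Min (cut T c) z m ∧ Min (cut T c) o j)} =
      Nat.card {ω : F × ZMod 3 → ZMod 2 // InA T z o m j ω} := by
    intro w b m j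
    rw [card_col T w b (fun ω => Rel T ω z o ∧ Min ω z m ∧ Min ω o j)]
    apply Nat.card_congr
    apply Equiv.subtypeEquivRight
    intro ω
    rw [inA_iff hzo]
    tauto
  rw [key, key, card_A_switch hzo]

end Vale.Agent.P148.R2.H593
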