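import Vale.Agent.P148.R2.H593.Colour

/-!
# White noise and the energy identity
-/

namespace Vale.Agent.P148.R2.H593

open Equiv Finset ComplexConjugate

variable {V F : Type*} {T : Tri V F} {ω : F × ZMod 3 → ZMod 2} {z o : F} {m j : ZMod 3} {ζ : ℂ}

/-- the weights `1, ζ, ζ ^ 2` -/
noncomputable def ch (ζ : ℂ) (m : ZMod 3) : ℂ := ζ ^ m.val

open Classical in
/-- spin of a face: `ζ ^ m` if the minority corner is `m`, `0` for monochromatic faces -/
noncomputable def xi (ζ : ℂ) (ω : F × ZMod 3 → ZMod 2) (z : F) : ℂ :=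
  ∑ m : ZMod 3, if Min ω z m then ch ζ m else 0

theorem xi_of_min (h : Min ω z m) : xi ζ ω z = ch ζ m := by
  unfold xi
  rw [Finset.sum_eq_single m]
  · rw [if_pos h]
  · intro b _ hb
    rw [if_neg]
    intro hb'
    exact hb (hb'.uniq h)
  · intro h'
    exact absurd (Finset.mem_univ m) h'

theorem xi_of_not_meets (h : ¬ Meets ω z) : xi ζ ω z = 0 := by
  unfold xi
  apply Finset.sum_eq_zero
  intro b _
  rw [if_neg]
  intro hb
  exact h hb.meets

theorem cube_of_root (hζ : 1 + ζ + ζ ^ 2 = 0) : ζ ^ 3 = 1 := by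
  have : ζ ^ 3 - 1 = (ζ - 1) * (1 + ζ + ζ ^ 2) := by ring
  rw [hζ, mul_zero, sub_eq_zero] at this
  exact this

theorem conj_root (hζ : 1 + ζ + ζ ^ 2 = 0) : conj ζ = ζ ^ 2 := by
  have h3 := cube_of_root hζ
  have hn : ‖ζ‖ = 1 := Complex.norm_eq_one_of_pow_eq_one h3 (by norm_num)
  have h1 : ζ * conj ζ = 1 := by
    rw [Complex.mul_conj, Complex.normSq_eq_norm_sq, hn]; simp
  have h0 : ζ ≠ 0 := by
    rintro rfl
    simp at h3
  have h2 : ζ * ζ ^ 2 = 1 := by rw [← h3]; ring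
  exact mul_left_cancel₀ h0 (h1.trans h2.symm)

theorem ch_mul_conj (hζ : 1 + ζ + ζ ^ 2 = 0) (m : ZMod 3) : ch ζ m * conj (ch ζ m) = 1 := by
  have h3 := cube_of_root hζ
  unfold ch
  rw [map_pow, conj_root hζ, ← mul_pow]
  have : ζ * ζ ^ 2 = 1 := by rw [← h3]; ring
  rw [this, one_pow]

theorem z3_sum (f : ZMod 3 → ℂ) : ∑ m : ZMod 3, f m = f 0 + f 1 + f 2 := by
  exact Fin.sum_univ_three f

theorem ch_zero : ch ζ 0 = 1 := by simp [ch]

theorem ch_one : ch ζ 1 = ζ := by
  have : (1 : ZMod 3).val = 1 := by decide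
  simp [ch, this]

theorem ch_two : ch ζ 2 = ζ ^ 2 := by
  have : (2 : ZMod 3).val = 2 := by decide
  simp [ch, this]

/-- the algebra of colour switching -/
theorem switch_algebra (hζ : 1 + ζ + ζ ^ 2 = 0) (N : ZMod 3 → ZMod 3 → ℂ)
    (hN : ∀ m j, N (m + 1) (j + 2) = N m j) :
    ∑ m : ZMod 3, ∑ j : ZMod 3, ch ζ m * conj (ch ζ j) * N m j = 0 := by
  have h3 := cube_of_root hζ
  have a1 : N 1 2 = N 0 0 := by have := hN 0 0; simpa using this
  have a2 : N 2 1 = N 0 0 := by
    have := hN 1 2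
    rw [show (1 : ZMod 3) + 1 = 2 by decide, show (2 : ZMod 3) + 2 = 1 by decide] at this
    rw [this, a1]
  have b1 : N 1 0 = N 0 1 := by
    have := hN 0 1
    rw [show (0 : ZMod 3) + 1 = 1 by decide, show (1 : ZMod 3) + 2 = 0 by decide] at this
    exact this
  have b2 : N 2 2 = N 0 1 := by
    have := hN 1 0
    rw [show (1 : ZMod 3) + 1 = 2 by decide, show (0 : ZMod 3) + 2 = 2 by decide] at this
    rw [this, b1]
  have c1 : N 1 1 = N 0 2 := by
    have := hN 0 2
    rw [show (0 : ZMod 3) + 1 = 1 by decide, show (2 : ZMod 3) + 2 = 1 by decide] at this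
    exact this
  have c2 : N 2 0 = N 0 2 := by
    have := hN 1 1
    rw [show (1 : ZMod 3) + 1 = 2 by decide, show (1 : ZMod 3) + 2 = 0 by decide] at this
    rw [this, c1]
  simp only [z3_sum, ch_zero, ch_one, ch_two, map_one, map_pow, conj_root hζ, a1, a2, b1, b2,
    c1, c2]
  have h4 : ζ ^ 4 = ζ := by rw [show ζ ^ 4 = ζ ^ 3 * ζ by ring, h3, one_mul]
  have h5 : ζ ^ 5 = ζ ^ 2 := by rw [show ζ ^ 5 = ζ ^ 3 * ζ ^ 2 by ring, h3, one_mul]
  have h6 : ζ ^ 6 = 1 := by rw [show ζ ^ 6 = ζ ^ 3 * ζ ^ 3 by ring, h3, one_mul]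
  have e1 : (1 * 1 * N 0 0 + 1 * ζ ^ 2 * N 0 1 + 1 * (ζ ^ 2) ^ 2 * N 0 2 +
      (ζ * 1 * N 0 1 + ζ * ζ ^ 2 * N 0 2 + ζ * (ζ ^ 2) ^ 2 * N 0 0) +
      (ζ ^ 2 * 1 * N 0 2 + ζ ^ 2 * ζ ^ 2 * N 0 0 + ζ ^ 2 * (ζ ^ 2) ^ 2 * N 0 1)) =
      (1 + ζ ^ 5 + ζ ^ 4) * N 0 0 + (ζ ^ 2 + ζ + ζ ^ 6) * N 0 1 +
        (ζ ^ 4 + ζ ^ 3 + ζ ^ 2) * N 0 2 := by ring
  rw [e1, h3, h4, h5, h6]
  linear_combination (N 0 0 + N 0 1 + N 0 2) * hζ

theorem card_split [Finite V] (v : V) (P : (V → ZMod 2) → Prop) :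
    Nat.card {c : V → ZMod 2 // P c} =
      Nat.card {c : V → ZMod 2 // c v = 0 ∧ P c} + Nat.card {c : V → ZMod 2 // c v = 1 ∧ P c} := by
  classical
  have : Fintype V := Fintype.ofFinite V
  rw [← Nat.card_sum]
  apply Nat.card_congr
  exact
    { toFun := fun c => if h : c.1 v = 0 then Sum.inl ⟨c.1, h, c.2⟩ else
        Sum.inr ⟨c.1, (z2_cases (c.1 v)).resolve_left h, c.2⟩
      invFun := fun s => Sum.elim (fun c => ⟨c.1, c.2.2⟩) (fun c => ⟨c.1, c.2.2⟩) s
      left_inv := fun c => by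
        dsimp only
        split_ifs <;> rfl
      right_inv := fun s => by
        rcases s with ⟨c, h, hc⟩ | ⟨c, h, hc⟩
        · simp [h]
        · simp [h] }

/-- **Colour switching for colourings** (no colour fixed). -/
theorem card_switch_all [Finite V] [Finite F] (T : Tri V F) (hzo : z ≠ o) (m j : ZMod 3) :
    Nat.card {c : V → ZMod 2 //
      Rel T (cut T c) z o ∧ Min (cut T c) z m ∧ Min (cut T c) o j} =
    Nat.card {c : V → ZMod 2 //
      Rel T (cut T c) z o ∧ Min (cut T c) z (m + 1) ∧ Min (cut T c) o (j + 2)} := by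
  rw [card_split (T.vert z 0), card_split (T.vert z 0) (fun c : V → ZMod 2 =>
      Rel T (cut T c) z o ∧ Min (cut T c) z (m + 1) ∧ Min (cut T c) o (j + 2)),
    card_switch T hzo m j (T.vert z 0) (T.vert z 0) 0 0,
    card_switch T hzo m j (T.vert z 0) (T.vert z 0) 1 1]

theorem sum_ite_card {ι : Type*} [Fintype ι] (P : ι → Prop) [DecidablePred P] (x : ℂ) :
    ∑ c : ι, (if P c then x else 0) = x * (Nat.card {c : ι // P c} : ℂ) := by
  rw [← Finset.sum_filter, Finset.sum_const, nsmul_eq_mul, mul_comm, Nat.card_eq_fintype_card,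
    Fintype.card_subtype]

open Classical in
/-- **White noise.** -/
theorem white_noise [Fintype V] [Finite F] (T : Tri V F) (hζ : 1 + ζ + ζ ^ 2 = 0) (hzo : z ≠ o) :
    ∑ c : V → ZMod 2, (if Rel T (cut T c) z o then
      xi ζ (cut T c) z * conj (xi ζ (cut T c) o) else 0) = 0 := by
  have h1 : ∀ c : V → ZMod 2, (if Rel T (cut T c) z o then
      xi ζ (cut T c) z * conj (xi ζ (cut T c) o) else 0) =
      ∑ m : ZMod 3, ∑ j : ZMod 3, (if Rel T (cut T c) z o ∧ Min (cut T c) z m ∧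
        Min (cut T c) o j then ch ζ m * conj (ch ζ j) else 0) := by
    intro c
    by_cases hr : Rel T (cut T c) z o
    · rw [if_pos hr]
      unfold xi
      rw [map_sum, Finset.sum_mul_sum]
      apply Finset.sum_congr rfl
      intro m _
      apply Finset.sum_congr rfl
      intro j _
      by_cases hm : Min (cut T c) z m
      · by_cases hj : Min (cut T c) o j
        · simp [hr, hm, hj]
        · simp [hj]
      · simp [hm]
    · rw [if_neg hr]
      symm
      apply Finset.sum_eq_zero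
      intro m _
      apply Finset.sum_eq_zero
      intro j _
      rw [if_neg]
      rintro ⟨h, -⟩
      exact hr h
  simp_rw [h1]
  rw [Finset.sum_comm]
  have h2 : ∀ m : ZMod 3, ∑ c : V → ZMod 2, ∑ j : ZMod 3, (if Rel T (cut T c) z o ∧
      Min (cut T c) z m ∧ Min (cut T c) o j then ch ζ m * conj (ch ζ j) else 0) =
      ∑ j : ZMod 3, ch ζ m * conj (ch ζ j) * (Nat.card {c : V → ZMod 2 //
      Rel T (cut T c) z o ∧ Min (cut T c) z m ∧ Min (cut T c) o j} : ℂ) := by
    intro m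
    rw [Finset.sum_comm]
    apply Finset.sum_congr rfl
    intro j _
    rw [sum_ite_card]
  simp_rw [h2]
  exact switch_algebra hζ (fun m j => (Nat.card {c : V → ZMod 2 //
      Rel T (cut T c) z o ∧ Min (cut T c) z m ∧ Min (cut T c) o j} : ℂ))
    (fun m j => by rw [card_switch_all T hzo m j])

theorem xi_mul_conj (hζ : 1 + ζ + ζ ^ 2 = 0) {c : V → ZMod 2} (h : Meets (cut T c) z) :
    xi ζ (cut T c) z * conj (xi ζ (cut T c) z) = 1 := by
  obtain ⟨m, hm⟩ := min_of_meets (par_cut T c z) h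
  rw [xi_of_min hm, ch_mul_conj hζ]

/-- number of colourings for which `z` is not monochromatic -/
noncomputable def polyCard (T : Tri V F) (z : F) : ℕ :=
  Nat.card {c : V → ZMod 2 // Meets (cut T c) z}

open Classical in
theorem white_noise_self [Fintype V] (T : Tri V F) (hζ : 1 + ζ + ζ ^ 2 = 0) (z : F) :
    ∑ c : V → ZMod 2, (if Rel T (cut T c) z z then
      xi ζ (cut T c) z * conj (xi ζ (cut T c) z) else 0) = polyCard T z := by
  have h1 : ∀ c : V → ZMod 2, (if Rel T (cut T c) z z then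
      xi ζ (cut T c) z * conj (xi ζ (cut T c) z) else 0) =
      if Meets (cut T c) z then 1 else 0 := by
    intro c
    rw [if_pos (Rel.refl z)]
    by_cases h : Meets (cut T c) z
    · rw [if_pos h, xi_mul_conj hζ h]
    · rw [if_neg h, xi_of_not_meets h]; simp
  simp_rw [h1]
  rw [sum_ite_card, one_mul]
  rfl

open Classical in
/-- **Energy identity**, pairs of faces in the same class. -/
theorem energy_pairs [Fintype V] [Fintype F] (T : Tri V F) (hζ : 1 + ζ + ζ ^ 2 = 0)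
    (θ θ' : F → ℂ) :
    ∑ c : V → ZMod 2, ∑ z : F, ∑ z' : F, (if Rel T (cut T c) z z' then
      (θ z * xi ζ (cut T c) z) * conj (θ' z' * xi ζ (cut T c) z') else 0) =
    ∑ z : F, θ z * conj (θ' z) * polyCard T z := by
  rw [Finset.sum_comm]
  apply Finset.sum_congr rfl
  intro z _
  rw [Finset.sum_comm]
  have h1 : ∀ z' : F, ∑ c : V → ZMod 2, (if Rel T (cut T c) z z' then
      (θ z * xi ζ (cut T c) z) * conj (θ' z' * xi ζ (cut T c) z') else 0) =
      θ z * conj (θ' z') * ∑ c : V → ZMod 2, (if Rel T (cut T c) z z' then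
        xi ζ (cut T c) z * conj (xi ζ (cut T c) z') else 0) := by
    intro z'
    rw [Finset.mul_sum]
    apply Finset.sum_congr rfl
    intro c _
    split_ifs
    · rw [map_mul]; ring
    · rw [mul_zero]
  simp_rw [h1]
  rw [Finset.sum_eq_single z]
  · rw [white_noise_self T hζ]
  · intro z' _ hz'
    rw [white_noise T hζ (Ne.symm hz'), mul_zero]
  · intro h
    exact absurd (Finset.mem_univ z) h

open Classical in
/-- the sum of the weights over a class -/
noncomputable def clsSum [Fintype F] (T : Tri V F) (ζ : ℂ) (ω : F × ZMod 3 → ZMod 2) (θ : F → ℂ)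
    (κ : Quotient (relSetoid T ω)) : ℂ :=
  ∑ z : F, if (Quotient.mk (relSetoid T ω) z) = κ then θ z * xi ζ ω z else 0

open Classical in
theorem sum_clsSum [Fintype F] (T : Tri V F) (ζ : ℂ) (ω : F × ZMod 3 → ZMod 2) (θ θ' : F → ℂ) :
    ∑ κ : Quotient (relSetoid T ω), clsSum T ζ ω θ κ * conj (clsSum T ζ ω θ' κ) =
      ∑ z : F, ∑ z' : F, (if Rel T ω z z' then
        (θ z * xi ζ ω z) * conj (θ' z' * xi ζ ω z') else 0) := by
  have h1 : ∀ κ : Quotient (relSetoid T ω),
      clsSum T ζ ω θ κ * conj (clsSum T ζ ω θ' κ) =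
      ∑ z : F, ∑ z' : F, (if (Quotient.mk (relSetoid T ω) z) = κ ∧
        (Quotient.mk (relSetoid T ω) z') = κ then
          (θ z * xi ζ ω z) * conj (θ' z' * xi ζ ω z') else 0) := by
    intro κ
    unfold clsSum
    rw [map_sum, Finset.sum_mul_sum]
    apply Finset.sum_congr rfl
    intro z _
    apply Finset.sum_congr rfl
    intro z' _
    by_cases ha : Quotient.mk (relSetoid T ω) z = κ
    · by_cases hb : Quotient.mk (relSetoid T ω) z' = κ
      · simp [ha, hb]
      · simp [hb]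
    · simp [ha]
  simp_rw [h1]
  rw [Finset.sum_comm]
  apply Finset.sum_congr rfl
  intro z _
  rw [Finset.sum_comm]
  apply Finset.sum_congr rfl
  intro z' _
  rw [Finset.sum_eq_single (Quotient.mk (relSetoid T ω) z)]
  · have : (Quotient.mk (relSetoid T ω) z = Quotient.mk (relSetoid T ω) z ∧
        Quotient.mk (relSetoid T ω) z' = Quotient.mk (relSetoid T ω) z) ↔ Rel T ω z z' := by
      constructor
      · rintro ⟨-, h⟩
        exact Rel.symm (Quotient.exact h)
      · intro h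
        exact ⟨rfl, Quotient.sound (Rel.symm h)⟩
    exact if_congr this rfl rfl
  · intro κ _ hκ
    rw [if_neg]
    rintro ⟨h, -⟩
    exact hκ h.symm
  · intro h
    exact absurd (Finset.mem_univ _) h

open Classical in
/-- **Energy identity** (sesquilinear form). -/
theorem energy [Fintype V] [Fintype F] (T : Tri V F) (hζ : 1 + ζ + ζ ^ 2 = 0) (θ θ' : F → ℂ) :
    ∑ c : V → ZMod 2, ∑ κ : Quotient (relSetoid T (cut T c)),
      clsSum T ζ (cut T c) θ κ * conj (clsSum T ζ (cut T c) θ' κ) =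
    ∑ z : F, θ z * conj (θ' z) * polyCard T z := by
  simp_rw [sum_clsSum]
  exact energy_pairs T hζ θ θ'

end Vale.Agent.P148.R2.H593
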