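import Vale.Agent.P148.R2.H593.Noise

/-!
# Quotients, good faces, the outer face with prescribed colours
-/

namespace Vale.Agent.P148.R2.H593

open Equiv Finset ComplexConjugate

variable {V V' F : Type*} {T : Tri V F} {ω : F × ZMod 3 → ZMod 2} {z o : F} {m j : ZMod 3} {ζ : ℂ}

/-- contraction of connected sets of vertices. `π` identifies vertices; the hypothesis says that
every vertex function which is constant along the sides inside the fibres of `π` factors through
`π`, i.e. the fibres of `π` are connected by sides -/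
def Tri.quotient (T : Tri V F) (π : V → V') (hs : Function.Surjective π)
    (hπ : ∀ c : V → ZMod 2, (∀ f j, π (T.vert f (j + 1)) = π (T.vert f (j + 2)) →
      c (T.vert f (j + 1)) = c (T.vert f (j + 2))) → ∀ u v, π u = π v → c u = c v) :
    Tri V' F where
  vert f j := π (T.vert f j)
  opp := T.opp
  opp_opp := T.opp_opp
  opp_ne := T.opp_ne
  vert_opp_one d := by rw [T.vert_opp_one]
  vert_opp_two d := by rw [T.vert_opp_two]
  planar := by
    intro ω h1 h2 h3
    obtain ⟨c, hc⟩ := T.planar ω h1 (fun d hd => h2 d (by rw [hd])) h3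
    have hcc : ∀ u v, π u = π v → c u = c v := by
      apply hπ c
      intro f j hfj
      have h0 := h2 (f, j) hfj
      rw [hc f j] at h0
      revert h0
      generalize c (T.vert f (j + 1)) = s
      generalize c (T.vert f (j + 2)) = t
      revert s t; decide
    refine ⟨fun v => c (Function.surjInv hs v), fun f j => ?_⟩
    rw [hc f j]
    congr 1
    · exact hcc _ _ (Function.surjInv_eq hs _).symm
    · exact hcc _ _ (Function.surjInv_eq hs _).symm
  conn := by
    intro c hc u v
    have := T.conn (fun w => c (π w)) (fun f j => hc f j) (Function.surjInv hs u)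
      (Function.surjInv hs v)
    simpa [Function.surjInv_eq hs] using this

/-- a face with three different corners -/
def Good (T : Tri V F) (z : F) : Prop := ∀ i : ZMod 3, T.vert z (i + 1) ≠ T.vert z (i + 2)

/-- signs -/
noncomputable def sg (a : ZMod 2) : ℂ := if a = 0 then 1 else -1

theorem sg_add_one (a : ZMod 2) : sg (a + 1) = - sg a := by
  rcases z2_cases a with rfl | rfl
  · have : (0 : ZMod 2) + 1 ≠ 0 := by decide
    rw [sg, sg, if_neg this, if_pos rfl]
  · have h1 : (1 : ZMod 2) + 1 = 0 := by decide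
    have h2 : (1 : ZMod 2) ≠ 0 := by decide
    rw [sg, sg, if_pos h1, if_neg h2, neg_neg]

open Classical in
theorem sum_sg_sg [Fintype V] {u v : V} (huv : u ≠ v) :
    ∑ c : V → ZMod 2, sg (c u) * sg (c v) = 0 := by
  set e : V → ZMod 2 := Pi.single u 1 with he
  have h1 : ∑ c : V → ZMod 2, sg (c u) * sg (c v) =
      ∑ c : V → ZMod 2, sg ((c + e) u) * sg ((c + e) v) :=
    (Equiv.sum_comp (Equiv.addRight e) (fun c => sg (c u) * sg (c v))).symm
  have h2 : ∀ c : V → ZMod 2, sg ((c + e) u) * sg ((c + e) v) =
      - (sg (c u) * sg (c v)) := by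
    intro c
    have e1 : e u = 1 := by rw [he, Pi.single_eq_same]
    have e2 : e v = 0 := by rw [he, Pi.single_eq_of_ne huv.symm]
    rw [Pi.add_apply, Pi.add_apply, e1, e2, add_zero, sg_add_one]
    ring
  simp_rw [h2] at h1
  rw [Finset.sum_neg_distrib] at h1
  exact CharZero.eq_neg_self_iff.mp h1

open Classical in
theorem meets_indicator (c : V → ZMod 2) (z : F) :
    (if Meets (cut T c) z then (1 : ℂ) else 0) =
      3 / 4 - (sg (c (T.vert z 0)) * sg (c (T.vert z 1)) + sg (c (T.vert z 1)) * sg (c (T.vert z 2))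
        + sg (c (T.vert z 0)) * sg (c (T.vert z 2))) / 4 := by
  have hm : Meets (cut T c) z ↔
      ¬ (c (T.vert z 0) = c (T.vert z 1) ∧ c (T.vert z 1) = c (T.vert z 2)) := by
    have e0 : cut T c (z, 0) = c (T.vert z 1) + c (T.vert z 2) := by simp [cut]
    have e1 : cut T c (z, 1) = c (T.vert z 2) + c (T.vert z 0) := by
      simp only [cut]
      rw [show (1 : ZMod 3) + 1 = 2 by decide, show (1 : ZMod 3) + 2 = 0 by decide]
    have e2 : cut T c (z, 2) = c (T.vert z 0) + c (T.vert z 1) := by
      simp only [cut]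
      rw [show (2 : ZMod 3) + 1 = 0 by decide, show (2 : ZMod 3) + 2 = 1 by decide]
    have hall : (∃ i, cut T c (z, i) = 1) ↔
        (cut T c (z, 0) = 1 ∨ cut T c (z, 1) = 1 ∨ cut T c (z, 2) = 1) := by
      constructor
      · rintro ⟨i, hi⟩
        have : i = 0 ∨ i = 1 ∨ i = 2 := by
          clear hi
          revert i; decide
        rcases this with rfl | rfl | rfl
        · exact Or.inl hi
        · exact Or.inr (Or.inl hi)
        · exact Or.inr (Or.inr hi)
      · rintro (h | h | h)
        · exact ⟨0, h⟩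
        · exact ⟨1, h⟩
        · exact ⟨2, h⟩
    unfold Meets
    rw [hall, e0, e1, e2]
    generalize c (T.vert z 0) = x
    generalize c (T.vert z 1) = y
    generalize c (T.vert z 2) = w
    revert x y w; decide
  by_cases h : Meets (cut T c) z
  · rw [if_pos h]
    rw [hm] at h
    rcases z2_cases (c (T.vert z 0)) with h0 | h0 <;> rcases z2_cases (c (T.vert z 1)) with h1 | h1
      <;> rcases z2_cases (c (T.vert z 2)) with h2 | h2 <;>
      simp only [h0, h1, h2, sg, and_self, not_true_eq_false] at h ⊢ <;> norm_num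
  · rw [if_neg h]
    rw [hm, not_not] at h
    obtain ⟨h1, h2⟩ := h
    rw [h1, h2]
    rcases z2_cases (c (T.vert z 2)) with h0 | h0 <;> simp only [h0, sg] <;> norm_num

theorem polyCard_good [Fintype V] (T : Tri V F) (hz : Good T z) :
    (polyCard T z : ℂ) = 3 / 4 * 2 ^ Fintype.card V := by
  classical
  have h1 : (polyCard T z : ℂ) = ∑ c : V → ZMod 2, (if Meets (cut T c) z then (1 : ℂ) else 0) := by
    rw [sum_ite_card, one_mul]; rfl
  rw [h1]
  simp_rw [meets_indicator]
  have n01 : T.vert z 0 ≠ T.vert z 1 := by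
    have := hz 2
    rwa [show (2 : ZMod 3) + 1 = 0 by decide, show (2 : ZMod 3) + 2 = 1 by decide] at this
  have n12 : T.vert z 1 ≠ T.vert z 2 := by
    have := hz 0
    rwa [zero_add, zero_add] at this
  have n02 : T.vert z 0 ≠ T.vert z 2 := by
    have := hz 1
    rw [show (1 : ZMod 3) + 1 = 2 by decide, show (1 : ZMod 3) + 2 = 0 by decide] at this
    exact this.symm
  rw [Finset.sum_sub_distrib, ← Finset.sum_div _ _ (4 : ℂ),
    ← Finset.sum_div _ (fun x : V → ZMod 2 => sg (x (T.vert z 0)) * sg (x (T.vert z 1)) +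
      sg (x (T.vert z 1)) * sg (x (T.vert z 2)) + sg (x (T.vert z 0)) * sg (x (T.vert z 2)))
      (4 : ℂ), Finset.sum_add_distrib, Finset.sum_add_distrib,
    sum_sg_sg n01, sum_sg_sg n12, sum_sg_sg n02, Finset.sum_const, Finset.card_univ]
  simp
  ring

theorem polyCard_le [Fintype V] (T : Tri V F) (z : F) : polyCard T z ≤ 2 ^ Fintype.card V := by
  classical
  unfold polyCard
  rw [Nat.card_eq_fintype_card]
  refine (Fintype.card_subtype_le _).trans ?_
  simp

open Classical in
/-- **Energy identity**, all weighted faces good. -/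
theorem energy_good [Fintype V] [Fintype F] (T : Tri V F) (hζ : 1 + ζ + ζ ^ 2 = 0) (θ θ' : F → ℂ)
    (hθ : ∀ z, ¬ Good T z → θ z = 0) :
    ∑ c : V → ZMod 2, ∑ κ : Quotient (relSetoid T (cut T c)),
      clsSum T ζ (cut T c) θ κ * conj (clsSum T ζ (cut T c) θ' κ) =
    3 / 4 * 2 ^ Fintype.card V * ∑ z : F, θ z * conj (θ' z) := by
  rw [energy T hζ, Finset.mul_sum]
  apply Finset.sum_congr rfl
  intro z _
  by_cases hz : Good T z
  · rw [polyCard_good T hz]; ring
  · rw [hθ z hz]; ring

/-- colourings for which the corner `j` of the outer face has the minority colour `1` -/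
def OutCol (T : Tri V F) (o : F) (j : ZMod 3) (c : V → ZMod 2) : Prop :=
  c (T.vert o j) = 1 ∧ c (T.vert o (j + 1)) = 0 ∧ c (T.vert o (j + 2)) = 0

theorem outCol_iff (c : V → ZMod 2) :
    OutCol T o j c ↔ c (T.vert o j) = 1 ∧ Min (cut T c) o j := by
  unfold OutCol Min cut
  simp only [z3_11, z3_12, z3_21, z3_22]
  generalize c (T.vert o j) = x
  generalize c (T.vert o (j + 1)) = y
  generalize c (T.vert o (j + 2)) = w
  revert x y w; decide

/-- number of colourings with outer minority corner `j` (colour `1`) for which `z` is in the class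
of `o` and has minority corner `m` -/
noncomputable def armCard (T : Tri V F) (z o : F) (m j : ZMod 3) : ℕ :=
  Nat.card {c : V → ZMod 2 // OutCol T o j c ∧ Rel T (cut T c) z o ∧ Min (cut T c) z m}

/-- **Colour switching**, outer face. -/
theorem armCard_switch [Finite F] (T : Tri V F) (hzo : z ≠ o) (m j : ZMod 3) :
    armCard T z o (m + 1) (j + 2) = armCard T z o m j := by
  have key : ∀ m j, armCard T z o m j = Nat.card {c : V → ZMod 2 // c (T.vert o j) = 1 ∧
      (Rel T (cut T c) z o ∧ Min (cut T c) z m ∧ Min (cut T c) o j)} := by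
    intro m j
    apply Nat.card_congr
    apply Equiv.subtypeEquivRight
    intro c
    rw [outCol_iff]
    tauto
  rw [key, key, card_switch T hzo m j (T.vert o j) (T.vert o (j + 2)) 1 1]

open Classical in
/-- the (unnormalised) expectation of the sum of the weights over the class of the outer face,
minority corner `j` -/
noncomputable def outSum [Fintype V] [Fintype F] (T : Tri V F) (ζ : ℂ) (o : F) (θ : F → ℂ)
    (j : ZMod 3) : ℂ :=
  ∑ c : V → ZMod 2, if OutCol T o j c then
    ∑ z : F, (if Rel T (cut T c) z o then θ z * xi ζ (cut T c) z else 0) else 0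

open Classical in
theorem outSum_eq [Fintype V] [Fintype F] (T : Tri V F) (ζ : ℂ) (o : F) (θ : F → ℂ)
    (j : ZMod 3) :
    outSum T ζ o θ j = ∑ z : F, θ z * ∑ m : ZMod 3, ch ζ m * armCard T z o m j := by
  unfold outSum
  have h1 : ∀ c : V → ZMod 2, (if OutCol T o j c then
    ∑ z : F, (if Rel T (cut T c) z o then θ z * xi ζ (cut T c) z else 0) else 0) =
      ∑ z : F, ∑ m : ZMod 3, (if OutCol T o j c ∧ Rel T (cut T c) z o ∧ Min (cut T c) z m then
        θ z * ch ζ m else 0) := by
    intro c
    by_cases hc : OutCol T o j c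
    · rw [if_pos hc]
      apply Finset.sum_congr rfl
      intro z _
      by_cases hr : Rel T (cut T c) z o
      · rw [if_pos hr, xi, Finset.mul_sum]
        apply Finset.sum_congr rfl
        intro m _
        by_cases hm : Min (cut T c) z m
        · simp [hc, hr, hm]
        · simp [hm]
      · rw [if_neg hr]
        simp [hr]
    · rw [if_neg hc]
      simp [hc]
  simp_rw [h1]
  rw [Finset.sum_comm]
  apply Finset.sum_congr rfl
  intro z _
  rw [Finset.sum_comm, Finset.mul_sum]
  apply Finset.sum_congr rfl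
  intro m _
  rw [sum_ite_card, mul_assoc]
  rfl

/-- **Rotation of the outer face**: `E_j V = ζ⁻ʲ E_0 V`. -/
theorem outSum_switch [Fintype V] [Fintype F] (T : Tri V F) (hζ : 1 + ζ + ζ ^ 2 = 0) (o : F)
    (θ : F → ℂ) (ho : θ o = 0) (j : ZMod 3) :
    outSum T ζ o θ (j + 2) = ζ * outSum T ζ o θ j := by
  rw [outSum_eq, outSum_eq, Finset.mul_sum]
  apply Finset.sum_congr rfl
  intro z _
  by_cases hz : z = o
  · rw [hz, ho]; simp
  · have h3 := cube_of_root hζ
    have hch : ∀ m : ZMod 3, ch ζ (m + 1) = ζ * ch ζ m := by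
      intro m
      have : m = 0 ∨ m = 1 ∨ m = 2 := by revert m; decide
      rcases this with rfl | rfl | rfl
      · rw [zero_add, ch_one, ch_zero, mul_one]
      · rw [show (1 : ZMod 3) + 1 = 2 by decide, ch_two, ch_one]; ring
      · rw [show (2 : ZMod 3) + 1 = 0 by decide, ch_two, ch_zero, ← h3]; ring
    have hsum : ∑ m : ZMod 3, ch ζ m * (armCard T z o m (j + 2) : ℂ) =
        ∑ m : ZMod 3, ch ζ (m + 1) * (armCard T z o (m + 1) (j + 2) : ℂ) :=
      (Equiv.sum_comp (Equiv.addRight (1 : ZMod 3))
        (fun m => ch ζ m * (armCard T z o m (j + 2) : ℂ))).symm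
    rw [hsum]
    simp_rw [armCard_switch T hz, hch]
    rw [Finset.mul_sum, Finset.mul_sum, Finset.mul_sum]
    apply Finset.sum_congr rfl
    intro m _
    ring

end Vale.Agent.P148.R2.H593
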