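import Mathlib

/-!
# Two involutions: strands and their end points

`α`, `β` involutions of a finite type, `α` without fixed points. For a fixed point `x` of `β` the
cycle of `x` under `β * α` is closed under `α` and `β` and contains exactly one more fixed point of
`β` (the partner of `x`).
-/

namespace Vale.Agent.P148.R2.H593

open Equiv

variable {X : Type*}

section

variable (α β : Perm X)

theorem beta_zpow (hα : ∀ x, α (α x) = x) (hβ : ∀ x, β (β x) = x) {x : X} (hx : β x = x) (k : ℤ) :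
    β (((β * α) ^ k) x) = ((β * α) ^ (-k)) x := by
  have hα' : α * α = 1 := by ext y; simp [hα]
  have hβ' : β * β = 1 := by ext y; simp [hβ]
  have hβi : β⁻¹ = β := inv_eq_of_mul_eq_one_left hβ'
  have hαi : α⁻¹ = α := inv_eq_of_mul_eq_one_left hα'
  have h1 : β * (β * α) * β⁻¹ = (β * α)⁻¹ := by
    rw [mul_inv_rev, hβi, hαi, ← mul_assoc, hβ', one_mul]
  have h2 : β * (β * α) ^ k * β⁻¹ = (β * α) ^ (-k) := by
    rw [← conj_zpow, h1, inv_zpow, zpow_neg]
  have h3 : β * (β * α) ^ k = (β * α) ^ (-k) * β := by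
    rw [← h2]; group
  have := congrArg (fun p : Perm X => p x) h3
  simpa [hx] using this

theorem alpha_zpow (hα : ∀ x, α (α x) = x) (hβ : ∀ x, β (β x) = x) {x : X} (hx : β x = x) (k : ℤ) :
    α (((β * α) ^ k) x) = ((β * α) ^ (-k - 1)) x := by
  have h1 : α (((β * α) ^ k) x) = β (((β * α) ^ (k + 1)) x) := by
    rw [add_comm, zpow_add, zpow_one]
    simp [hβ]
  rw [h1, beta_zpow α β hα hβ hx]
  congr 2
  ring

theorem sameCycle_alpha (hα : ∀ x, α (α x) = x) (hβ : ∀ x, β (β x) = x) {x y : X} (hx : β x = x)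
    (h : (β * α).SameCycle x y) : (β * α).SameCycle x (α y) := by
  obtain ⟨k, rfl⟩ := h
  exact ⟨-k - 1, (alpha_zpow α β hα hβ hx k).symm⟩

theorem sameCycle_beta (hα : ∀ x, α (α x) = x) (hβ : ∀ x, β (β x) = x) {x y : X} (hx : β x = x)
    (h : (β * α).SameCycle x y) : (β * α).SameCycle x (β y) := by
  obtain ⟨k, rfl⟩ := h
  exact ⟨-k, (beta_zpow α β hα hβ hx k).symm⟩

theorem exists_partner [Finite X] (hα : ∀ x, α (α x) = x) (hαf : ∀ x, α x ≠ x)
    (hβ : ∀ x, β (β x) = x) {x : X} (hx : β x = x) :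
    ∃ y, y ≠ x ∧ β y = y ∧ (β * α).SameCycle x y ∧
      (∀ w, (β * α).SameCycle x w → β w = w → w = x ∨ w = y) ∧
      ∃ h : ℕ, 0 < h ∧ ((β * α) ^ h) x = y ∧ (∀ k, k < h → ((β * α) ^ k) x ≠ y) ∧
        ∀ k, 0 < k → k < h → β (((β * α) ^ k) x) ≠ ((β * α) ^ k) x := by
  classical
  set φ := β * α with hφ
  set n := Function.minimalPeriod φ x with hn
  have hper : x ∈ Function.periodicPts φ := by
    have := Function.Injective.mem_periodicPts φ.injective x
    exact this
  have hnpos : 0 < n := Function.minimalPeriod_pos_of_mem_periodicPts hper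
  have hiter : ∀ k : ℕ, (φ ^ k) x = φ^[k] x := fun k => by
    rw [Equiv.Perm.iterate_eq_pow]
  have hz : ∀ k l : ℤ, (φ ^ k) x = (φ ^ l) x ↔ (n : ℤ) ∣ k - l := by
    have key : ∀ m : ℕ, (φ ^ m) x = x ↔ n ∣ m := by
      intro m
      rw [hiter]
      exact Function.isPeriodicPt_iff_minimalPeriod_dvd
    have key2 : ∀ m : ℤ, (φ ^ m) x = x ↔ (n : ℤ) ∣ m := by
      intro m
      obtain ⟨m, rfl | rfl⟩ := m.eq_nat_or_neg
      · rw [zpow_natCast, key, Int.natCast_dvd_natCast]
      · rw [Int.dvd_neg, Int.natCast_dvd_natCast, ← key, zpow_neg, zpow_natCast]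
        constructor
        · intro h
          have := congrArg (φ ^ m) h
          simpa using this.symm
        · intro h
          have := congrArg (⇑((φ ^ m)⁻¹)) h
          simpa using this.symm
    intro k l
    rw [← key2, sub_eq_add_neg, add_comm, zpow_add]
    constructor
    · intro h
      simp [h]
    · intro h
      have := congrArg (φ ^ l) h
      simpa using this
  -- n even
  have hodd : ∀ k : ℤ, ¬ (n : ℤ) ∣ 2 * k + 1 := by
    intro k hk
    have h1 := alpha_zpow α β hα hβ hx k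
    have h2 : (φ ^ (-k - 1)) x = (φ ^ k) x := by
      rw [hz]
      have : -k - 1 - k = -(2 * k + 1) := by ring
      rw [this]
      exact (dvd_neg).2 hk
    exact hαf _ (h1.trans h2)
  have heven : Even n := by
    rcases Nat.even_or_odd n with h | h
    · exact h
    · exfalso
      obtain ⟨k, hk⟩ := h
      apply hodd k
      exact ⟨1, by rw [hk]; push_cast; ring⟩
  obtain ⟨h, hh⟩ := heven
  have hhpos : 0 < h := by omega
  have hlt : h < n := by omega
  refine ⟨(φ ^ (h : ℤ)) x, ?_, ?_, ⟨h, rfl⟩, ?_, h, hhpos, ?_, ?_, ?_⟩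
  · intro hc
    have : (φ ^ (h : ℤ)) x = (φ ^ (0 : ℤ)) x := by simpa using hc
    rw [hz] at this
    have h3 : n ∣ h := by
      rw [sub_zero] at this
      exact Int.natCast_dvd_natCast.1 this
    exact absurd (Nat.le_of_dvd hhpos h3) (by omega)
  · rw [beta_zpow α β hα hβ hx, ← hφ, hz]
    refine ⟨-1, ?_⟩
    rw [hh]; push_cast; ring
  · rintro w ⟨k, rfl⟩ hw
    rw [beta_zpow α β hα hβ hx, ← hφ, hz] at hw
    obtain ⟨c, hc⟩ := hw
    -- -k - k = n * c, so k = - h * c
    have hk : k = -(h : ℤ) * c := by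
      rw [hh] at hc; push_cast at hc; linarith
    rcases Int.even_or_odd c with hc2 | hc2
    · left
      obtain ⟨e, he⟩ := hc2
      have : (φ ^ k) x = (φ ^ (0 : ℤ)) x := by
        rw [hz]
        refine ⟨-e, ?_⟩
        rw [hk, he, hh]; push_cast; ring
      simpa using this
    · right
      obtain ⟨e, he⟩ := hc2
      rw [hz]
      refine ⟨-e - 1, ?_⟩
      rw [hk, he, hh]; push_cast; ring
  · rw [zpow_natCast]
  · intro k hk hc
    have : (φ ^ (k : ℤ)) x = (φ ^ (h : ℤ)) x := by
      rw [zpow_natCast]; exact hc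
    rw [hz] at this
    have h4 : (n : ℤ) ∣ (h : ℤ) - k := by
      have := (dvd_neg).2 this
      simpa using this
    have h5 : n ∣ h - k := by
      have h6 : ((h - k : ℕ) : ℤ) = (h : ℤ) - k := by
        rw [Nat.cast_sub hk.le]
      rw [← h6] at h4
      exact Int.natCast_dvd_natCast.1 h4
    exact absurd (Nat.le_of_dvd (by omega) h5) (by omega)
  · intro k hk0 hkh hc
    have h7 : β ((φ ^ (k : ℤ)) x) = (φ ^ (k : ℤ)) x := by
      rw [zpow_natCast]; exact hc
    rw [beta_zpow α β hα hβ hx, ← hφ, hz] at h7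
    have h8 : (n : ℤ) ∣ ((2 * k : ℕ) : ℤ) := by
      have := (dvd_neg).2 h7
      have h9 : -(-(k : ℤ) - k) = ((2 * k : ℕ) : ℤ) := by push_cast; ring
      rwa [h9] at this
    have h10 : n ∣ 2 * k := Int.natCast_dvd_natCast.1 h8
    exact absurd (Nat.le_of_dvd (by omega) h10) (by omega)

end

end Vale.Agent.P148.R2.H593
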