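import Vale.Agent.P148.R2.H593.Strand

/-!
# The rotation lemma

Three disjoint strands from the face `z` to the face `o`: the matching of the sides reverses the
cyclic order.
-/

namespace Vale.Agent.P148.R2.H593

open Equiv

variable {V F : Type*} {T : Tri V F} {Z : Set F} {ω : F × ZMod 3 → ZMod 2}

/-- a vertex function all of whose jumps are occupied -/
def Compat (T : Tri V F) (ω : F × ZMod 3 → ZMod 2) (c : V → ZMod 2) : Prop :=
  ∀ f j, ω (f, j) = 0 → c (T.vert f (j + 1)) = c (T.vert f (j + 2))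

/-- the vertices on the left and on the right of a strand keep their values -/
theorem strand_bits_pow (hω : IsCfg T ω) (hp : ∀ f, f ∉ Z → par ω f = 0) {c : V → ZMod 2}
    (hc : Compat T ω c) {x : F × ZMod 3} (hx1 : ω x = 1) {h : ℕ}
    (hfree : ∀ k, 0 < k → k < h → (((step T Z ω) ^ k) x).1 ∉ Z) (k : ℕ) (hk : k < h) :
    c (T.vert (((step T Z ω) ^ k) x).1 ((((step T Z ω) ^ k) x).2 + 2)) = c (T.vert x.1 (x.2 + 2)) ∧
    c (T.vert (((step T Z ω) ^ k) x).1 ((((step T Z ω) ^ k) x).2 + 1)) = c (T.vert x.1 (x.2 + 1)) := by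
  induction k with
  | zero => simp
  | succ k ih =>
    obtain ⟨ih2, ih1⟩ := ih (by omega)
    set d := ((step T Z ω) ^ k) x with hd
    have hd1 : ω d = 1 := by
      have : Strand T Z ω x d := ⟨k, by rw [zpow_natCast]⟩
      rw [this.omega hω.opp, hx1]
    have hnext : ((step T Z ω) ^ (k + 1)) x = turn Z ω (T.opp d) := by
      rw [pow_succ', Perm.mul_apply, ← hd]; rfl
    have hnZ : (((step T Z ω) ^ (k + 1)) x).1 ∉ Z := hfree (k + 1) (by omega) hk
    rw [hnext] at hnZ ⊢
    rw [turn_fst] at hnZ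
    have e1 := T.vert_opp_one d
    have e2 := T.vert_opp_two d
    have ho1 : ω (T.opp d) = 1 := by rw [hω.opp, hd1]
    generalize T.opp d = e at hnZ e1 e2 ho1 ⊢
    obtain ⟨f', i'⟩ := e
    simp only at hnZ e1 e2
    rcases even_face (hp f' hnZ) ho1 with ⟨h1, h2⟩ | ⟨h1, h2⟩
    · rw [turn_of_one_zero hnZ ho1 h1 h2]
      simp only [z3_11, z3_12]
      have := hc f' (i' + 2) h2
      rw [z3_21, z3_22] at this
      exact ⟨by rw [this, e1, ih2], by rw [e2, ih1]⟩
    · rw [turn_of_zero_one hnZ ho1 h1 h2]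
      simp only [z3_21, z3_22]
      have := hc f' (i' + 1) h1
      rw [z3_11, z3_12] at this
      exact ⟨by rw [e1, ih2], by rw [← this, e2, ih1]⟩

/-- values at the two ends of a strand -/
theorem strand_bits [Finite F] (hω : IsCfg T ω) (hp : ∀ f, f ∉ Z → par ω f = 0) {c : V → ZMod 2}
    (hc : Compat T ω c) {x y : F × ZMod 3} (hx : x.1 ∈ Z) (hx1 : ω x = 1) (hy : y.1 ∈ Z)
    (hyx : y ≠ x) (hxy : Strand T Z ω x y) :
    c (T.vert y.1 (y.2 + 1)) = c (T.vert x.1 (x.2 + 2)) ∧
    c (T.vert y.1 (y.2 + 2)) = c (T.vert x.1 (x.2 + 1)) := by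
  obtain ⟨y', hy'x, hy'Z, hxy', huniq, h, hpos, hh, hmin, hfree⟩ := partner hω hp hx hx1
  have hyy : y = y' := (huniq y hxy hy).resolve_left hyx
  subst hyy
  obtain ⟨h', rfl⟩ : ∃ h', h = h' + 1 := ⟨h - 1, by omega⟩
  have key := strand_bits_pow hω hp hc hx1 hfree h' (by omega)
  set d := ((step T Z ω) ^ h') x with hd
  have hnext : y = turn Z ω (T.opp d) := by
    rw [← hh, pow_succ', Perm.mul_apply, ← hd]; rfl
  have hoZ : (T.opp d).1 ∈ Z := by
    rw [hnext, turn_fst] at hy'Z; exact hy'Z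
  have hnext' : y = T.opp d := by rw [hnext, turn_of_mem Z ω hoZ]
  rw [hnext', T.vert_opp_one, T.vert_opp_two]
  exact key

theorem ind_supp (hω : IsCfg T ω) {x : F × ZMod 3} (hx1 : ω x = 1) {d : F × ZMod 3}
    (hd : ω d = 0) : ind T Z ω x d = 0 := by
  rw [ind_eq_zero]
  intro hc
  have := hc.omega hω.opp
  rw [hd, hx1] at this
  exact absurd this (by decide)

/-- data of the full three strand situation between two faces -/
structure Theta (T : Tri V F) (z o : F) (ω : F × ZMod 3 → ZMod 2) : Prop where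
  ne : z ≠ o
  cfg : IsCfg T ω
  even : ∀ f, f ∉ ({z, o} : Set F) → par ω f = 0
  full_z : ∀ a, ω (z, a) = 1
  full_o : ∀ a, ω (o, a) = 1
  link : ∀ a, ∃ b, Strand T {z, o} ω (z, a) (o, b)

section theta

variable {z o : F}

theorem mem_z : z ∈ ({z, o} : Set F) := Set.mem_insert _ _

theorem mem_o : o ∈ ({z, o} : Set F) := Set.mem_insert_of_mem _ rfl

theorem Theta.uniq [Finite F] (h : Theta T z o ω) {a b : ZMod 3}
    (hab : Strand T {z, o} ω (z, a) (o, b)) {w : F × ZMod 3} (hw : w.1 ∈ ({z, o} : Set F))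
    (haw : Strand T {z, o} ω (z, a) w) : w = (z, a) ∨ w = (o, b) := by
  obtain ⟨y, hyx, hyZ, hxy, huniq, -⟩ := partner h.cfg h.even (x := (z, a)) mem_z (h.full_z a)
  have h1 : ((o, b) : F × ZMod 3) = y := by
    rcases huniq (o, b) hab mem_o with h1 | h1
    · exact absurd (congrArg Prod.fst h1).symm h.ne
    · exact h1
  rw [h1]
  exact huniq w haw hw

theorem Theta.inj [Finite F] (h : Theta T z o ω) {a a' b b' : ZMod 3}
    (hab : Strand T {z, o} ω (z, a) (o, b)) (hab' : Strand T {z, o} ω (z, a') (o, b'))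
    (hne : a ≠ a') : b ≠ b' := by
  rintro rfl
  have h1 := hab.trans hab'.symm
  rcases h.uniq hab mem_z h1 with h2 | h2
  · exact hne (congrArg Prod.snd h2).symm
  · exact h.ne (congrArg Prod.fst h2)

/-- the potentials -/
theorem Theta.potential [Finite F] (h : Theta T z o ω) (a : ZMod 3) :
    ∃ c : V → ZMod 2, Compat T ω c ∧ c (T.vert z a) = 1 ∧ c (T.vert z (a + 1)) = 0 ∧
      c (T.vert z (a + 2)) = 0 := by
  set θ := ind T {z, o} ω (z, a + 1) + ind T {z, o} ω (z, a + 2) with hθ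
  have hcfg : IsCfg T θ :=
    (ind_isCfg h.cfg mem_z (h.full_z _)).add (ind_isCfg h.cfg mem_z (h.full_z _))
  obtain ⟨b1, hb1⟩ := h.link (a + 1)
  obtain ⟨b2, hb2⟩ := h.link (a + 2)
  have hbne : b1 ≠ b2 := h.inj hb1 hb2 (z3_ne12 a)
  have i11 : ind T {z, o} ω (z, a + 1) (z, a + 1) = 1 := ind_eq_one.2 (Strand.refl _)
  have i22 : ind T {z, o} ω (z, a + 2) (z, a + 2) = 1 := ind_eq_one.2 (Strand.refl _)
  have zz : ∀ b c : ZMod 3, c ≠ b → ind T {z, o} ω (z, b) (z, c) = 0 := by
    intro b c hcb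
    rw [ind_eq_zero]
    intro hc
    obtain ⟨b', hb'⟩ := h.link b
    rcases h.uniq hb' mem_z hc with h2 | h2
    · exact hcb (congrArg Prod.snd h2)
    · exact h.ne (congrArg Prod.fst h2)
  have zo : ∀ b b' c : ZMod 3, Strand T {z, o} ω (z, b) (o, b') → c ≠ b' →
      ind T {z, o} ω (z, b) (o, c) = 0 := by
    intro b b' c hb' hcb
    rw [ind_eq_zero]
    intro hc
    rcases h.uniq hb' mem_o hc with h2 | h2
    · exact h.ne (congrArg Prod.fst h2).symm
    · exact hcb (congrArg Prod.snd h2)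
  have hz0 : θ (z, a) = 0 := by
    simp only [hθ, Pi.add_apply]
    rw [zz (a + 1) a (z3_ne1 a).symm, zz (a + 2) a (z3_ne2 a).symm]; decide
  have hz1 : θ (z, a + 1) = 1 := by
    simp only [hθ, Pi.add_apply]
    rw [i11, zz (a + 2) (a + 1) (z3_ne12 a)]; decide
  have hz2 : θ (z, a + 2) = 1 := by
    simp only [hθ, Pi.add_apply]
    rw [i22, zz (a + 1) (a + 2) (z3_ne12 a).symm]; decide
  have hparz : par θ z = 0 := by
    rw [par_eq θ z a, hz0, hz1, hz2]; decide
  have hparo : par θ o = 0 := by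
    -- third index
    have hthird : ∀ b1 b2 : ZMod 3, b1 ≠ b2 →
        (b2 = b1 + 1) ∨ (b2 = b1 + 2) := by decide
    have o11 : ind T {z, o} ω (z, a + 1) (o, b1) = 1 := ind_eq_one.2 hb1
    have o22 : ind T {z, o} ω (z, a + 2) (o, b2) = 1 := ind_eq_one.2 hb2
    rcases hthird b1 b2 hbne with hb | hb
    · rw [par_eq θ o b1]
      simp only [hθ, Pi.add_apply]
      rw [o11, zo (a + 1) b1 (b1 + 1) hb1 (z3_ne1 b1), zo (a + 1) b1 (b1 + 2) hb1 (z3_ne2 b1),
        zo (a + 2) b2 b1 hb2 hbne, ← hb, o22,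
        zo (a + 2) b2 (b1 + 2) hb2 (by rw [hb]; exact (z3_ne12 b1).symm)]
      decide
    · rw [par_eq θ o b1]
      simp only [hθ, Pi.add_apply]
      rw [o11, zo (a + 1) b1 (b1 + 1) hb1 (z3_ne1 b1), zo (a + 1) b1 (b1 + 2) hb1 (z3_ne2 b1),
        zo (a + 2) b2 b1 hb2 hbne, ← hb, o22,
        zo (a + 2) b2 (b1 + 1) hb2 (by rw [hb]; exact (z3_ne12 b1))]
      decide
  have hpar : ∀ f, θ (f, 0) + θ (f, 1) + θ (f, 2) = 0 := by
    intro f
    change par θ f = 0
    by_cases hf : f ∈ ({z, o} : Set F)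
    · rcases hf with rfl | hf
      · exact hparz
      · rw [Set.mem_singleton_iff.1 hf]; exact hparo
    · rw [hθ, par_add, par_ind h.cfg h.even mem_z (h.full_z _) hf,
        par_ind h.cfg h.even mem_z (h.full_z _) hf]
      decide
  obtain ⟨c, hc⟩ := T.planar θ hcfg.opp hcfg.loop hpar
  refine ⟨fun v => c v + (1 + c (T.vert z a)), ?_, ?_, ?_, ?_⟩
  · intro f j hfj
    have h0 : θ (f, j) = 0 := by
      simp only [hθ, Pi.add_apply]
      rw [ind_supp h.cfg (h.full_z _) hfj, ind_supp h.cfg (h.full_z _) hfj]; decide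
    rw [hc f j] at h0
    have : c (T.vert f (j + 1)) = c (T.vert f (j + 2)) := by
      revert h0
      generalize c (T.vert f (j + 1)) = s
      generalize c (T.vert f (j + 2)) = t
      revert s t; decide
    simp only [this]
  · dsimp only
    generalize c (T.vert z a) = s
    revert s; decide
  · dsimp only
    have h2 := hc z (a + 2)
    rw [hz2, z3_21, z3_22] at h2
    revert h2
    generalize c (T.vert z a) = s
    generalize c (T.vert z (a + 1)) = t
    revert s t; decide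
  · dsimp only
    have h1 := hc z (a + 1)
    rw [hz1, z3_11, z3_12] at h1
    revert h1
    generalize c (T.vert z a) = s
    generalize c (T.vert z (a + 2)) = t
    revert s t; decide

/-- **Rotation lemma.** -/
theorem Theta.rotation [Finite F] (h : Theta T z o ω) {a b : ZMod 3}
    (hab : Strand T {z, o} ω (z, a) (o, b)) : Strand T {z, o} ω (z, a + 1) (o, b + 2) := by
  obtain ⟨b', hb'⟩ := h.link (a + 1)
  have hne : b ≠ b' := h.inj hab hb' (z3_ne1 a).symm
  have hcase : b' = b + 1 ∨ b' = b + 2 := by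
    clear hab hb' h
    revert b b'; decide
  rcases hcase with hb | hb
  · exfalso
    subst hb
    -- use the potential at index a
    obtain ⟨c, hc, hc0, hc1, hc2⟩ := h.potential a
    have hno : ∀ k l : ZMod 3, ((o, k) : F × ZMod 3) ≠ (z, l) := fun k l e =>
      h.ne (congrArg Prod.fst e).symm
    have k1 := (strand_bits h.cfg h.even hc (x := (z, a)) (y := (o, b)) mem_z (h.full_z a) mem_o
      (hno _ _) hab).2
    have k2 := (strand_bits h.cfg h.even hc (x := (z, a + 1)) (y := (o, b + 1)) mem_z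
      (h.full_z _) mem_o (hno _ _) hb').1
    simp only [z3_11, z3_12] at k1 k2
    rw [k1, hc1, hc0] at k2
    exact absurd k2 (by decide)
  · rw [← hb]; exact hb'

end theta

end Vale.Agent.P148.R2.H593
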