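import Vale.Agent.P148.R2.H593.Tri

/-!
# Strands: configurations, indicators, partners
-/

namespace Vale.Agent.P148.R2.H593

open Equiv

variable {V F : Type*}

/-- a chain of dual edges: invariant under `opp`, zero on loops -/
structure IsCfg (T : Tri V F) (ω : F × ZMod 3 → ZMod 2) : Prop where
  opp : ∀ d, ω (T.opp d) = ω d
  loop : ∀ d : F × ZMod 3, T.vert d.1 (d.2 + 1) = T.vert d.1 (d.2 + 2) → ω d = 0

theorem IsCfg.add {T : Tri V F} {ω ω' : F × ZMod 3 → ZMod 2} (h : IsCfg T ω) (h' : IsCfg T ω') :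
    IsCfg T (ω + ω') :=
  ⟨fun d => by simp [h.opp d, h'.opp d], fun d hd => by simp [h.loop d hd, h'.loop d hd]⟩

theorem par_add (ω ω' : F × ZMod 3 → ZMod 2) (f : F) : par (ω + ω') f = par ω f + par ω' f := by
  simp only [par, Pi.add_apply]; ring

variable {T : Tri V F} {Z : Set F} {ω : F × ZMod 3 → ZMod 2}

open Classical in
/-- indicator of the strand through `x` -/
noncomputable def ind (T : Tri V F) (Z : Set F) (ω : F × ZMod 3 → ZMod 2) (x : F × ZMod 3) :
    F × ZMod 3 → ZMod 2 := fun d => if Strand T Z ω x d then 1 else 0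

theorem ind_eq_one {x d : F × ZMod 3} : ind T Z ω x d = 1 ↔ Strand T Z ω x d := by
  unfold ind
  split_ifs with h
  · simp [h]
  · simp [h]

theorem ind_eq_zero {x d : F × ZMod 3} : ind T Z ω x d = 0 ↔ ¬ Strand T Z ω x d := by
  unfold ind
  split_ifs with h
  · simp [h]
  · simp [h]

theorem ind_isCfg (hω : IsCfg T ω) {x : F × ZMod 3} (hx : x.1 ∈ Z) (hx1 : ω x = 1) :
    IsCfg T (ind T Z ω x) := by
  refine ⟨fun d => ?_, fun d hd => ?_⟩
  · rcases z2_cases (ind T Z ω x d) with h | h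
    · rw [h, ind_eq_zero]
      intro hc
      have := hc.opp hx
      rw [T.opp_opp] at this
      exact ind_eq_zero.1 h this
    · rw [h, ind_eq_one]
      exact (ind_eq_one.1 h).opp hx
  · rw [ind_eq_zero]
    intro hc
    have h1 := hc.omega hω.opp
    rw [hω.loop d hd, hx1] at h1
    exact absurd h1 (by decide)

/-- the third side of an even face with two occupied sides is free, etc. -/
theorem even_face {ω : F × ZMod 3 → ZMod 2} {f : F} (hp : par ω f = 0) {i : ZMod 3}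
    (hi : ω (f, i) = 1) :
    (ω (f, i + 1) = 1 ∧ ω (f, i + 2) = 0) ∨ (ω (f, i + 1) = 0 ∧ ω (f, i + 2) = 1) := by
  rw [par_eq ω f i, hi] at hp
  rcases z2_cases (ω (f, i + 1)) with h1 | h1 <;> rcases z2_cases (ω (f, i + 2)) with h2 | h2
  · rw [h1, h2] at hp; exact absurd hp (by decide)
  · exact Or.inr ⟨h1, h2⟩
  · exact Or.inl ⟨h1, h2⟩
  · rw [h1, h2] at hp; exact absurd hp (by decide)

theorem turn_of_one_zero {f : F} {i : ZMod 3} (hZ : f ∉ Z) (h0 : ω (f, i) = 1)
    (h1 : ω (f, i + 1) = 1) (h2 : ω (f, i + 2) = 0) : turn Z ω (f, i) = (f, i + 1) := by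
  simp [turnFun, hZ, h0, h1, h2]

theorem turn_of_zero_one {f : F} {i : ZMod 3} (hZ : f ∉ Z) (h0 : ω (f, i) = 1)
    (h1 : ω (f, i + 1) = 0) (h2 : ω (f, i + 2) = 1) : turn Z ω (f, i) = (f, i + 2) := by
  simp [turnFun, hZ, h0, h1, h2]

/-- outside `Z`, if a strand uses a side of an even face, it uses exactly the two occupied sides -/
theorem strand_face (hω : IsCfg T ω) (hp : ∀ f, f ∉ Z → par ω f = 0) {x : F × ZMod 3}
    (hx : x.1 ∈ Z) (hx1 : ω x = 1) {f : F} {i : ZMod 3} (hf : f ∉ Z) (h : Strand T Z ω x (f, i)) :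
    ∀ k, Strand T Z ω x (f, k) ↔ ω (f, k) = 1 := by
  intro k
  constructor
  · intro hk
    rw [hk.omega hω.opp, hx1]
  · intro hk
    have hi : ω (f, i) = 1 := by rw [h.omega hω.opp, hx1]
    have ht := h.turn hx
    rcases even_face (hp f hf) hi with ⟨h1, h2⟩ | ⟨h1, h2⟩
    · rw [turn_of_one_zero hf hi h1 h2] at ht
      rcases z3_cases i k with rfl | rfl | rfl
      · exact h
      · exact ht
      · rw [h2] at hk; exact absurd hk (by decide)
    · rw [turn_of_zero_one hf hi h1 h2] at ht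
      rcases z3_cases i k with rfl | rfl | rfl
      · exact h
      · rw [h1] at hk; exact absurd hk (by decide)
      · exact ht

theorem par_ind (hω : IsCfg T ω) (hp : ∀ f, f ∉ Z → par ω f = 0) {x : F × ZMod 3}
    (hx : x.1 ∈ Z) (hx1 : ω x = 1) {f : F} (hf : f ∉ Z) : par (ind T Z ω x) f = 0 := by
  by_cases h : ∃ i, Strand T Z ω x (f, i)
  · obtain ⟨i, hi⟩ := h
    have key := strand_face hω hp hx hx1 hf hi
    have : ∀ k, ind T Z ω x (f, k) = ω (f, k) := by
      intro k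
      rcases z2_cases (ω (f, k)) with h0 | h0
      · rw [h0, ind_eq_zero, key k, h0]; decide
      · rw [h0, ind_eq_one, key k, h0]
    unfold par
    rw [this, this, this]
    exact hp f hf
  · push Not at h
    unfold par
    rw [ind_eq_zero.2 (h 0), ind_eq_zero.2 (h 1), ind_eq_zero.2 (h 2)]
    decide

/-- the partner of a dart at a face of `Z` -/
theorem partner [Finite F] (hω : IsCfg T ω) (hp : ∀ f, f ∉ Z → par ω f = 0) {x : F × ZMod 3}
    (hx : x.1 ∈ Z) (hx1 : ω x = 1) :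
    ∃ y, y ≠ x ∧ y.1 ∈ Z ∧ Strand T Z ω x y ∧ (∀ w, Strand T Z ω x w → w.1 ∈ Z → w = x ∨ w = y) ∧
      ∃ h : ℕ, 0 < h ∧ ((step T Z ω) ^ h) x = y ∧ (∀ k, k < h → ((step T Z ω) ^ k) x ≠ y) ∧
        ∀ k, 0 < k → k < h → (((step T Z ω) ^ k) x).1 ∉ Z := by
  have hfin : Finite (F × ZMod 3) := inferInstance
  obtain ⟨y, hyx, hyf, hxy, huniq, h, hpos, hh, hmin, hfree⟩ :=
    exists_partner T.opp (turn Z ω) T.opp_opp T.opp_ne (turn_turn Z ω) (turn_of_mem Z ω hx)
  have hy1 : ω y = 1 := by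
    have : Strand T Z ω x y := hxy
    rw [this.omega hω.opp, hx1]
  refine ⟨y, hyx, mem_of_turn_eq Z ω hp hy1 hyf, hxy, ?_, h, hpos, hh, hmin, ?_⟩
  · intro w hw hwZ
    exact huniq w hw (turn_of_mem Z ω hwZ)
  · intro k hk0 hkh hmem
    exact hfree k hk0 hkh (turn_of_mem Z ω hmem)

end Vale.Agent.P148.R2.H593
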