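import Vale.Agent.P148.R2.H593.Rotation

/-!
# Colour switching
-/

namespace Vale.Agent.P148.R2.H593

open Equiv

variable {V F : Type*} {T : Tri V F} {Z : Set F} {ω : F × ZMod 3 → ZMod 2}

/-- two configurations that agree at the faces touched by the strand of `x` have the same strand -/
theorem strand_congr [Finite F] {ω' : F × ZMod 3 → ZMod 2} {x : F × ZMod 3}
    (H : ∀ y, Strand T Z ω x y → y.1 ∉ Z → ∀ i, ω' (y.1, i) = ω (y.1, i)) (y : F × ZMod 3) :
    Strand T Z ω' x y ↔ Strand T Z ω x y := by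
  have key : ∀ n : ℕ, ((step T Z ω') ^ n) x = ((step T Z ω) ^ n) x := by
    intro n
    induction n with
    | zero => simp
    | succ n ih =>
      have e1 : ((step T Z ω') ^ (n + 1)) x = turn Z ω' (T.opp (((step T Z ω') ^ n) x)) := by
        rw [pow_succ', Perm.mul_apply]; rfl
      have e2 : ((step T Z ω) ^ (n + 1)) x = turn Z ω (T.opp (((step T Z ω) ^ n) x)) := by
        rw [pow_succ', Perm.mul_apply]; rfl
      have hs : Strand T Z ω x (((step T Z ω) ^ (n + 1)) x) := ⟨(n + 1 : ℕ), by rw [zpow_natCast]⟩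
      rw [e1, e2, ih]
      apply turn_congr
      intro hZ i
      have h1 := H _ hs
      rw [e2, turn_fst] at h1
      exact h1 hZ i
  have hfin : Finite (F × ZMod 3) := inferInstance
  constructor
  · intro h
    obtain ⟨n, hn⟩ := Perm.SameCycle.exists_nat_pow_eq h
    exact ⟨n, by rw [zpow_natCast, ← key, hn]⟩
  · intro h
    obtain ⟨n, hn⟩ := Perm.SameCycle.exists_nat_pow_eq h
    exact ⟨n, by rw [zpow_natCast, key, hn]⟩

variable {z o : F} {m j : ZMod 3}

/-- `p` joins `z` (through the side `m`) with `o` (through the side `j`), avoiding the other faces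
touched by `γ` -/
structure Bridge (T : Tri V F) (z o : F) (m j : ZMod 3) (γ : Set (F × ZMod 3))
    (p : F × ZMod 3 → ZMod 2) : Prop where
  cfg : IsCfg T p
  even : ∀ f, f ∉ ({z, o} : Set F) → par p f = 0
  z0 : p (z, m) = 1
  z1 : p (z, m + 1) = 0
  z2 : p (z, m + 2) = 0
  o0 : p (o, j) = 1
  o1 : p (o, j + 1) = 0
  o2 : p (o, j + 2) = 0
  avoid : ∀ f, f ∉ ({z, o} : Set F) → (∃ i, (f, i) ∈ γ) → ∀ i, p (f, i) = 0

/-- the two strands leaving `z` through the sides `m + 1`, `m + 2` -/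
def gam (T : Tri V F) (z o : F) (m : ZMod 3) (ω : F × ZMod 3 → ZMod 2) : Set (F × ZMod 3) :=
  {d | Strand T {z, o} ω (z, m + 1) d ∨ Strand T {z, o} ω (z, m + 2) d}

/-- even configurations with `z`, `o` on the same loop and in the same block -/
structure InA (T : Tri V F) (z o : F) (m j : ZMod 3) (ω : F × ZMod 3 → ZMod 2) : Prop where
  cfg : IsCfg T ω
  even : ∀ f, par ω f = 0
  z0 : ω (z, m) = 0
  z1 : ω (z, m + 1) = 1
  z2 : ω (z, m + 2) = 1
  o0 : ω (o, j) = 0
  o1 : ω (o, j + 1) = 1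
  o2 : ω (o, j + 2) = 1
  link : ∃ k, Strand T {z, o} ω (z, m + 1) (o, k)
  bridge : ∃ p, Bridge T z o m j (gam T z o m ω) p

/-- three strands from `z` to `o` -/
structure InB (T : Tri V F) (z o : F) (m j : ZMod 3) (ω : F × ZMod 3 → ZMod 2) : Prop where
  theta : Theta T z o ω
  pair : Strand T {z, o} ω (z, m) (o, j)

theorem linked_uniq [Finite F] (hzo : z ≠ o) (hω : IsCfg T ω)
    (hp : ∀ f, f ∉ ({z, o} : Set F) → par ω f = 0) {a b : ZMod 3} (ha : ω (z, a) = 1)
    (hab : Strand T {z, o} ω (z, a) (o, b)) {w : F × ZMod 3} (hw : w.1 ∈ ({z, o} : Set F))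
    (haw : Strand T {z, o} ω (z, a) w) : w = (z, a) ∨ w = (o, b) := by
  obtain ⟨y, hyx, hyZ, hxy, huniq, -⟩ := partner hω hp (x := (z, a)) mem_z ha
  have h1 : ((o, b) : F × ZMod 3) = y := by
    rcases huniq (o, b) hab mem_o with h1 | h1
    · exact absurd (congrArg Prod.fst h1).symm hzo
    · exact h1
  rw [h1]
  exact huniq w haw hw

/-- an occupied side of `z`, none of the other occupied sides of which is in its strand, is linked
to `o` -/
theorem link_of_not [Finite F] (hω : IsCfg T ω)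
    (hp : ∀ f, f ∉ ({z, o} : Set F) → par ω f = 0) {a : ZMod 3} (ha : ω (z, a) = 1)
    (hn : ∀ b, b ≠ a → ω (z, b) = 1 → ¬ Strand T {z, o} ω (z, a) (z, b)) :
    ∃ b, Strand T {z, o} ω (z, a) (o, b) := by
  obtain ⟨y, hyx, hyZ, hxy, huniq, -⟩ := partner hω hp (x := (z, a)) mem_z ha
  have hy1 : ω y = 1 := by rw [hxy.omega hω.opp, ha]
  obtain ⟨f, b⟩ := y
  rcases hyZ with h1 | h1
  · change f = z at h1
    subst h1
    exfalso
    refine hn b ?_ hy1 hxy
    rintro rfl
    exact hyx rfl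
  · change f = o at h1
    subst h1
    exact ⟨b, hxy⟩

/-- the third side of `z` gives a bridge for the other two strands -/
theorem bridge_of_InB [Finite F] (h : InB T z o m j ω) :
    Bridge T z o m j (gam T z o m ω) (ind T {z, o} ω (z, m)) := by
  have hth := h.theta
  have zz : ∀ c : ZMod 3, c ≠ m → ind T {z, o} ω (z, m) (z, c) = 0 := by
    intro c hcb
    rw [ind_eq_zero]
    intro hc
    rcases hth.uniq h.pair mem_z hc with h2 | h2
    · exact hcb (congrArg Prod.snd h2)
    · exact hth.ne (congrArg Prod.fst h2)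
  have zo : ∀ c : ZMod 3, c ≠ j → ind T {z, o} ω (z, m) (o, c) = 0 := by
    intro c hcb
    rw [ind_eq_zero]
    intro hc
    rcases hth.uniq h.pair mem_o hc with h2 | h2
    · exact hth.ne (congrArg Prod.fst h2).symm
    · exact hcb (congrArg Prod.snd h2)
  refine ⟨ind_isCfg hth.cfg mem_z (hth.full_z m), fun f hf => ?_, ind_eq_one.2 (Strand.refl _),
    zz _ (z3_ne1 m), zz _ (z3_ne2 m), ind_eq_one.2 h.pair, zo _ (z3_ne1 j), zo _ (z3_ne2 j), ?_⟩
  · exact par_ind hth.cfg hth.even mem_z (hth.full_z m) hf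
  · rintro f hf ⟨i, hi⟩ k
    rw [ind_eq_zero]
    intro hc
    have hface := strand_face hth.cfg hth.even (x := (z, m)) mem_z (hth.full_z m) hf hc
    rcases hi with hi | hi
    · have h1 : ω (f, i) = 1 := by rw [hi.omega hth.cfg.opp, hth.full_z]
      have h2 := ((hface i).2 h1).trans hi.symm
      rcases hth.uniq h.pair mem_z h2 with h3 | h3
      · exact z3_ne1 m (congrArg Prod.snd h3)
      · exact hth.ne (congrArg Prod.fst h3)
    · have h1 : ω (f, i) = 1 := by rw [hi.omega hth.cfg.opp, hth.full_z]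
      have h2 := ((hface i).2 h1).trans hi.symm
      rcases hth.uniq h.pair mem_z h2 with h3 | h3
      · exact z3_ne2 m (congrArg Prod.snd h3)
      · exact hth.ne (congrArg Prod.fst h3)

/-- adding a bridge does not change the two strands -/
theorem strand_add_bridge [Finite F] {γ : Set (F × ZMod 3)} {p : F × ZMod 3 → ZMod 2}
    (hp : Bridge T z o m j γ p) {x : F × ZMod 3} (hx : ∀ y, Strand T {z, o} ω x y → y ∈ γ)
    (y : F × ZMod 3) : Strand T {z, o} (ω + p) x y ↔ Strand T {z, o} ω x y := by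
  apply strand_congr
  rintro ⟨f, k⟩ hy hyZ i
  have := hp.avoid f hyZ ⟨k, hx _ hy⟩ i
  simp [this]

theorem gam_add_bridge [Finite F] {p : F × ZMod 3 → ZMod 2}
    (hp : Bridge T z o m j (gam T z o m ω) p) : gam T z o m (ω + p) = gam T z o m ω := by
  ext d
  unfold gam
  simp only [Set.mem_ofPred_eq]
  rw [strand_add_bridge hp (x := (z, m + 1)) (fun y hy => Or.inl hy),
    strand_add_bridge hp (x := (z, m + 2)) (fun y hy => Or.inr hy)]

theorem z2_add_self (a : ZMod 2) : a + a = 0 := by revert a; decide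

theorem z3_pigeon (j k0 k1 k2 : ZMod 3) (h : k1 ≠ j ∧ k2 ≠ j ∧ k1 ≠ k2 ∧ k0 ≠ k1 ∧ k0 ≠ k2) :
    k0 = j := by
  revert j k0 k1 k2; decide

theorem z3_111 (m : ZMod 3) : m + 1 + 1 + 1 = m := by revert m; decide

theorem z3_222 (m : ZMod 3) : m + 2 + 2 + 2 = m := by revert m; decide

theorem add_add_self (ω p : F × ZMod 3 → ZMod 2) : ω + p + p = ω := by
  ext d
  simp only [Pi.add_apply]
  rw [add_assoc, z2_add_self, add_zero]

/-- from one side to the other: `A → B` -/
theorem InA.add_bridge [Finite F] (hzo : z ≠ o) (h : InA T z o m j ω) {p : F × ZMod 3 → ZMod 2}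
    (hp : Bridge T z o m j (gam T z o m ω) p) : InB T z o m j (ω + p) := by
  have hcfg : IsCfg T (ω + p) := h.cfg.add hp.cfg
  have heven0 : ∀ f, f ∉ ({z, o} : Set F) → par ω f = 0 := fun f _ => h.even f
  have heven : ∀ f, f ∉ ({z, o} : Set F) → par (ω + p) f = 0 := by
    intro f hf
    rw [par_add, h.even f, hp.even f hf, add_zero]
  have fz0 : (ω + p) (z, m) = 1 := by rw [Pi.add_apply, h.z0, hp.z0]; decide
  have fz1 : (ω + p) (z, m + 1) = 1 := by rw [Pi.add_apply, h.z1, hp.z1]; decide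
  have fz2 : (ω + p) (z, m + 2) = 1 := by rw [Pi.add_apply, h.z2, hp.z2]; decide
  have fo0 : (ω + p) (o, j) = 1 := by rw [Pi.add_apply, h.o0, hp.o0]; decide
  have fo1 : (ω + p) (o, j + 1) = 1 := by rw [Pi.add_apply, h.o1, hp.o1]; decide
  have fo2 : (ω + p) (o, j + 2) = 1 := by rw [Pi.add_apply, h.o2, hp.o2]; decide
  have fullz : ∀ a, (ω + p) (z, a) = 1 := by
    intro a
    rcases z3_cases m a with rfl | rfl | rfl
    · exact fz0
    · exact fz1
    · exact fz2
  have fullo : ∀ a, (ω + p) (o, a) = 1 := by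
    intro a
    rcases z3_cases j a with rfl | rfl | rfl
    · exact fo0
    · exact fo1
    · exact fo2
  have S1 := fun y => strand_add_bridge hp (x := (z, m + 1)) (fun y hy => Or.inl hy) y
  have S2 := fun y => strand_add_bridge hp (x := (z, m + 2)) (fun y hy => Or.inr hy) y
  obtain ⟨k1, hk1⟩ := h.link
  obtain ⟨k2, hk2⟩ : ∃ k, Strand T {z, o} ω (z, m + 2) (o, k) := by
    apply link_of_not h.cfg heven0 h.z2
    intro b hb hb1 hs
    rcases z3_cases m b with rfl | rfl | rfl
    · rw [h.z0] at hb1; exact absurd hb1 (by decide)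
    · rcases linked_uniq hzo h.cfg heven0 h.z1 hk1 mem_z hs.symm with h2 | h2
      · exact z3_ne12 m (congrArg Prod.snd h2).symm
      · exact hzo (congrArg Prod.fst h2)
    · exact hb rfl
  have L1 : Strand T {z, o} (ω + p) (z, m + 1) (o, k1) := (S1 _).2 hk1
  have L2 : Strand T {z, o} (ω + p) (z, m + 2) (o, k2) := (S2 _).2 hk2
  obtain ⟨k0, L0⟩ : ∃ k, Strand T {z, o} (ω + p) (z, m) (o, k) := by
    apply link_of_not hcfg heven fz0
    intro b hb hb1 hs
    rcases z3_cases m b with rfl | rfl | rfl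
    · exact hb rfl
    · rcases linked_uniq hzo hcfg heven fz1 L1 mem_z hs.symm with h2 | h2
      · exact z3_ne1 m (congrArg Prod.snd h2).symm
      · exact hzo (congrArg Prod.fst h2)
    · rcases linked_uniq hzo hcfg heven fz2 L2 mem_z hs.symm with h2 | h2
      · exact z3_ne2 m (congrArg Prod.snd h2).symm
      · exact hzo (congrArg Prod.fst h2)
  have hth : Theta T z o (ω + p) := by
    refine ⟨hzo, hcfg, heven, fullz, fullo, ?_⟩
    intro a
    rcases z3_cases m a with rfl | rfl | rfl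
    · exact ⟨k0, L0⟩
    · exact ⟨k1, L1⟩
    · exact ⟨k2, L2⟩
  refine ⟨hth, ?_⟩
  have n1 : k1 ≠ j := by
    rintro rfl
    have := hk1.omega h.cfg.opp
    rw [h.o0, h.z1] at this
    exact absurd this (by decide)
  have n2 : k2 ≠ j := by
    rintro rfl
    have := hk2.omega h.cfg.opp
    rw [h.o0, h.z2] at this
    exact absurd this (by decide)
  have n12 : k1 ≠ k2 := hth.inj L1 L2 (z3_ne12 m)
  have n01 : k0 ≠ k1 := hth.inj L0 L1 (z3_ne1 m).symm
  have n02 : k0 ≠ k2 := hth.inj L0 L2 (z3_ne2 m).symm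
  have : k0 = j := z3_pigeon j k0 k1 k2 ⟨n1, n2, n12, n01, n02⟩
  rw [this] at L0
  exact L0

/-- from one side to the other: `B → A` -/
theorem InB.add_bridge [Finite F] (h : InB T z o m j ω) {p : F × ZMod 3 → ZMod 2}
    (hp : Bridge T z o m j (gam T z o m ω) p) : InA T z o m j (ω + p) := by
  have hth := h.theta
  have fz0 : (ω + p) (z, m) = 0 := by rw [Pi.add_apply, hth.full_z, hp.z0]; decide
  have fz1 : (ω + p) (z, m + 1) = 1 := by rw [Pi.add_apply, hth.full_z, hp.z1]; decide
  have fz2 : (ω + p) (z, m + 2) = 1 := by rw [Pi.add_apply, hth.full_z, hp.z2]; decide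
  have fo0 : (ω + p) (o, j) = 0 := by rw [Pi.add_apply, hth.full_o, hp.o0]; decide
  have fo1 : (ω + p) (o, j + 1) = 1 := by rw [Pi.add_apply, hth.full_o, hp.o1]; decide
  have fo2 : (ω + p) (o, j + 2) = 1 := by rw [Pi.add_apply, hth.full_o, hp.o2]; decide
  refine ⟨hth.cfg.add hp.cfg, ?_, fz0, fz1, fz2, fo0, fo1, fo2, ?_, ?_⟩
  · intro f
    by_cases hf : f ∈ ({z, o} : Set F)
    · rcases hf with rfl | hf
      · rw [par_eq _ f m, fz0, fz1, fz2]; decide
      · rw [Set.mem_singleton_iff.1 hf, par_eq _ o j, fo0, fo1, fo2]; decide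
    · rw [par_add, hth.even f hf, hp.even f hf, add_zero]
  · obtain ⟨b, hb⟩ := hth.link (m + 1)
    exact ⟨b, (strand_add_bridge hp (x := (z, m + 1)) (fun y hy => Or.inl hy) _).2 hb⟩
  · exact ⟨p, by rw [gam_add_bridge hp]; exact hp⟩

open Classical in
/-- a chosen bridge for every pair of strands -/
noncomputable def chosen (T : Tri V F) (z o : F) (m j : ZMod 3) (γ : Set (F × ZMod 3)) :
    F × ZMod 3 → ZMod 2 :=
  if h : ∃ p, Bridge T z o m j γ p then Classical.choose h else 0

theorem chosen_spec {γ : Set (F × ZMod 3)} (h : ∃ p, Bridge T z o m j γ p) :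
    Bridge T z o m j γ (chosen T z o m j γ) := by
  unfold chosen
  rw [dif_pos h]
  exact Classical.choose_spec h

/-- the switching map -/
noncomputable def sw (T : Tri V F) (z o : F) (m j : ZMod 3) (ω : F × ZMod 3 → ZMod 2) :
    F × ZMod 3 → ZMod 2 := ω + chosen T z o m j (gam T z o m ω)

theorem sw_sw [Finite F] (h : ∃ p, Bridge T z o m j (gam T z o m ω) p) :
    sw T z o m j (sw T z o m j ω) = ω := by
  have h1 := chosen_spec h
  have h2 := gam_add_bridge h1
  unfold sw
  rw [h2, add_add_self]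

theorem card_A_eq_card_B [Finite F] (hzo : z ≠ o) (m j : ZMod 3) :
    Nat.card {ω : F × ZMod 3 → ZMod 2 // InA T z o m j ω} =
      Nat.card {ω : F × ZMod 3 → ZMod 2 // InB T z o m j ω} := by
  apply Nat.card_congr
  exact
    { toFun := fun ω => ⟨sw T z o m j ω.1, ω.2.add_bridge hzo (chosen_spec ω.2.bridge)⟩
      invFun := fun ω => ⟨sw T z o m j ω.1, ω.2.add_bridge (chosen_spec ⟨_, bridge_of_InB ω.2⟩)⟩
      left_inv := fun ω => Subtype.ext (sw_sw ω.2.bridge)
      right_inv := fun ω => Subtype.ext (sw_sw ⟨_, bridge_of_InB ω.2⟩) }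

theorem InB.rotate [Finite F] (h : InB T z o m j ω) : InB T z o (m + 1) (j + 2) ω :=
  ⟨h.theta, h.theta.rotation h.pair⟩

theorem InB_iff [Finite F] : InB T z o m j ω ↔ InB T z o (m + 1) (j + 2) ω := by
  refine ⟨InB.rotate, fun h => ?_⟩
  have h3 := h.rotate.rotate
  rwa [z3_111, z3_222] at h3

/-- **Colour switching** for even dual subgraphs. -/
theorem card_A_switch [Finite F] (hzo : z ≠ o) (m j : ZMod 3) :
    Nat.card {ω : F × ZMod 3 → ZMod 2 // InA T z o m j ω} =
      Nat.card {ω : F × ZMod 3 → ZMod 2 // InA T z o (m + 1) (j + 2) ω} := by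
  rw [card_A_eq_card_B hzo, card_A_eq_card_B hzo]
  apply Nat.card_congr
  exact Equiv.subtypeEquivRight fun ω => InB_iff

end Vale.Agent.P148.R2.H593
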