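import Vale.Agent.P148.R2.H593.Pairing

/-!
# Abstract planar triangulations and strands of even dual subgraphs
-/

namespace Vale.Agent.P148.R2.H593

open Equiv

/-- A finite or infinite abstract planar triangulation. `F` is the set of (oriented) triangles, the
corners of `f` are `vert f 0, vert f 1, vert f 2` in counterclockwise order, the dart `(f, j)` is the
side of `f` opposite to the corner `j`; `opp` glues the sides (reversing orientation). Sides with
equal end points (loops) are allowed. Planarity: every mod 2 chain of dual edges without boundary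
and without loops is the coboundary of a vertex colouring. -/
structure Tri (V F : Type*) where
  vert : F → ZMod 3 → V
  opp : Perm (F × ZMod 3)
  opp_opp : ∀ d, opp (opp d) = d
  opp_ne : ∀ d, opp d ≠ d
  vert_opp_one : ∀ d, vert (opp d).1 ((opp d).2 + 1) = vert d.1 (d.2 + 2)
  vert_opp_two : ∀ d, vert (opp d).1 ((opp d).2 + 2) = vert d.1 (d.2 + 1)
  planar : ∀ ω : F × ZMod 3 → ZMod 2, (∀ d, ω (opp d) = ω d) →
    (∀ d, vert d.1 (d.2 + 1) = vert d.1 (d.2 + 2) → ω d = 0) →
    (∀ f, ω (f, 0) + ω (f, 1) + ω (f, 2) = 0) →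
    ∃ c : V → ZMod 2, ∀ f j, ω (f, j) = c (vert f (j + 1)) + c (vert f (j + 2))
  conn : ∀ c : V → ZMod 2, (∀ f j, c (vert f (j + 1)) = c (vert f (j + 2))) → ∀ u v, c u = c v

/-- arithmetic of `ZMod 3` -/
theorem z3_11 (i : ZMod 3) : i + 1 + 1 = i + 2 := by revert i; decide
theorem z3_12 (i : ZMod 3) : i + 1 + 2 = i := by revert i; decide
theorem z3_21 (i : ZMod 3) : i + 2 + 1 = i := by revert i; decide
theorem z3_22 (i : ZMod 3) : i + 2 + 2 = i + 1 := by revert i; decide
theorem z3_ne1 (i : ZMod 3) : i + 1 ≠ i := by revert i; decide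
theorem z3_ne2 (i : ZMod 3) : i + 2 ≠ i := by revert i; decide
theorem z3_ne12 (i : ZMod 3) : i + 1 ≠ i + 2 := by revert i; decide
theorem z3_cases (i k : ZMod 3) : k = i ∨ k = i + 1 ∨ k = i + 2 := by revert i k; decide
theorem z2_cases (a : ZMod 2) : a = 0 ∨ a = 1 := by revert a; decide

/-- parity of a chain at a face -/
def par {F : Type*} (ω : F × ZMod 3 → ZMod 2) (f : F) : ZMod 2 := ω (f, 0) + ω (f, 1) + ω (f, 2)

theorem par_eq {F : Type*} (ω : F × ZMod 3 → ZMod 2) (f : F) (i : ZMod 3) :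
    par ω f = ω (f, i) + ω (f, i + 1) + ω (f, i + 2) := by
  unfold par
  have : i = 0 ∨ i = 1 ∨ i = 2 := by revert i; decide
  rcases this with rfl | rfl | rfl
  · simp
  · have h1 : (1 : ZMod 3) + 1 = 2 := by decide
    have h2 : (1 : ZMod 3) + 2 = 0 := by decide
    rw [h1, h2]; ring
  · have h1 : (2 : ZMod 3) + 1 = 0 := by decide
    have h2 : (2 : ZMod 3) + 2 = 1 := by decide
    rw [h1, h2]; ring

section turn

variable {F : Type*} (Z : Set F) (ω : F × ZMod 3 → ZMod 2)

open Classical in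
/-- the turning rule: at a face outside `Z` with exactly two occupied sides, swap them -/
noncomputable def turnFun (d : F × ZMod 3) : F × ZMod 3 :=
  if d.1 ∈ Z then d
  else if ω d = 1 ∧ ω (d.1, d.2 + 1) = 1 ∧ ω (d.1, d.2 + 2) = 0 then (d.1, d.2 + 1)
  else if ω d = 1 ∧ ω (d.1, d.2 + 2) = 1 ∧ ω (d.1, d.2 + 1) = 0 then (d.1, d.2 + 2)
  else d

theorem turnFun_fst (d : F × ZMod 3) : (turnFun Z ω d).1 = d.1 := by
  unfold turnFun; split_ifs <;> rfl

theorem turnFun_turnFun (d : F × ZMod 3) : turnFun Z ω (turnFun Z ω d) = d := by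
  obtain ⟨f, i⟩ := d
  by_cases hZ : f ∈ Z
  · simp [turnFun, hZ]
  · by_cases h1 : ω (f, i) = 1 ∧ ω (f, i + 1) = 1 ∧ ω (f, i + 2) = 0
    · obtain ⟨a, b, c⟩ := h1
      simp [turnFun, hZ, a, b, c, z3_11, z3_12]
    · by_cases h2 : ω (f, i) = 1 ∧ ω (f, i + 2) = 1 ∧ ω (f, i + 1) = 0
      · obtain ⟨a, b, c⟩ := h2
        simp [turnFun, hZ, a, b, c, z3_21, z3_22]
      · have : turnFun Z ω (f, i) = (f, i) := by
          simp only [turnFun, hZ, if_false]
          rw [if_neg h1, if_neg h2]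
        rw [this, this]

/-- the turning involution -/
noncomputable def turn : Perm (F × ZMod 3) :=
  ⟨turnFun Z ω, turnFun Z ω, turnFun_turnFun Z ω, turnFun_turnFun Z ω⟩

@[simp] theorem turn_apply (d : F × ZMod 3) : turn Z ω d = turnFun Z ω d := rfl

theorem turn_turn (d : F × ZMod 3) : turn Z ω (turn Z ω d) = d := turnFun_turnFun Z ω d

theorem turn_fst (d : F × ZMod 3) : (turn Z ω d).1 = d.1 := turnFun_fst Z ω d

theorem turn_of_mem {d : F × ZMod 3} (h : d.1 ∈ Z) : turn Z ω d = d := by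
  simp [turnFun, h]

theorem omega_turn (d : F × ZMod 3) : ω (turn Z ω d) = ω d := by
  rw [turn_apply]
  unfold turnFun
  split_ifs with h1 h2 h3
  · rfl
  · rw [h2.1, h2.2.1]
  · rw [h3.1, h3.2.1]
  · rfl

/-- the turning rule only depends on the configuration at the face -/
theorem turn_congr {ω' : F × ZMod 3 → ZMod 2} (d : F × ZMod 3)
    (h : d.1 ∉ Z → ∀ i, ω' (d.1, i) = ω (d.1, i)) : turn Z ω' d = turn Z ω d := by
  by_cases hZ : d.1 ∈ Z
  · rw [turn_of_mem Z ω hZ, turn_of_mem Z ω' hZ]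
  · have h' := h hZ
    have h0 : ω' d = ω d := h' d.2
    simp only [turn_apply, turnFun, hZ, if_false, h0, h']

theorem mem_of_turn_eq {d : F × ZMod 3} (hp : ∀ f, f ∉ Z → par ω f = 0) (hd : ω d = 1)
    (h : turn Z ω d = d) : d.1 ∈ Z := by
  by_contra hZ
  obtain ⟨f, i⟩ := d
  have hpar := hp f hZ
  rw [par_eq ω f i, hd] at hpar
  rcases z2_cases (ω (f, i + 1)) with h1 | h1 <;> rcases z2_cases (ω (f, i + 2)) with h2 | h2
  · rw [h1, h2] at hpar; exact absurd hpar (by decide)
  · have : turn Z ω (f, i) = (f, i + 2) := by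
      simp [turnFun, show f ∉ Z from hZ, hd, h1, h2]
    rw [this] at h
    exact z3_ne2 i (congrArg Prod.snd h)
  · have : turn Z ω (f, i) = (f, i + 1) := by
      simp [turnFun, show f ∉ Z from hZ, hd, h1, h2]
    rw [this] at h
    exact z3_ne1 i (congrArg Prod.snd h)
  · rw [h1, h2] at hpar; exact absurd hpar (by decide)

end turn

section strand

variable {V F : Type*} (T : Tri V F) (Z : Set F) (ω : F × ZMod 3 → ZMod 2)

/-- one step along a strand -/
noncomputable def step : Perm (F × ZMod 3) := turn Z ω * T.opp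

/-- the strand through the dart `x` -/
def Strand (x y : F × ZMod 3) : Prop := (step T Z ω).SameCycle x y

variable {T Z ω}

theorem Strand.refl (x : F × ZMod 3) : Strand T Z ω x x := Perm.SameCycle.refl _ _

theorem Strand.symm {x y : F × ZMod 3} (h : Strand T Z ω x y) : Strand T Z ω y x :=
  Perm.SameCycle.symm h

theorem Strand.trans {x y w : F × ZMod 3} (h : Strand T Z ω x y) (h' : Strand T Z ω y w) :
    Strand T Z ω x w := Perm.SameCycle.trans h h'

theorem Strand.opp {x y : F × ZMod 3} (hx : x.1 ∈ Z) (h : Strand T Z ω x y) :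
    Strand T Z ω x (T.opp y) :=
  sameCycle_alpha T.opp (turn Z ω) T.opp_opp (turn_turn Z ω) (turn_of_mem Z ω hx) h

theorem Strand.turn {x y : F × ZMod 3} (hx : x.1 ∈ Z) (h : Strand T Z ω x y) :
    Strand T Z ω x (turn Z ω y) :=
  sameCycle_beta T.opp (H593.turn Z ω) T.opp_opp (turn_turn Z ω) (turn_of_mem Z ω hx) h

theorem step_inv (hc : ∀ d, ω (T.opp d) = ω d) (d : F × ZMod 3) : ω (step T Z ω d) = ω d := by
  unfold step
  rw [Perm.mul_apply, omega_turn Z ω, hc]

theorem step_zpow_inv (hc : ∀ d, ω (T.opp d) = ω d) (k : ℤ) (d : F × ZMod 3) :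
    ω (((step T Z ω) ^ k) d) = ω d := by
  have hn : ∀ (n : ℕ) (d : F × ZMod 3), ω (((step T Z ω) ^ n) d) = ω d := by
    intro n
    induction n with
    | zero => intro d; simp
    | succ n ih => intro d; rw [pow_succ', Perm.mul_apply, step_inv hc, ih]
  obtain ⟨n, rfl | rfl⟩ := k.eq_nat_or_neg
  · rw [zpow_natCast]; exact hn n d
  · rw [zpow_neg, zpow_natCast]
    have := hn n (((step T Z ω) ^ n)⁻¹ d)
    simpa using this.symm

theorem Strand.omega (hc : ∀ d, ω (T.opp d) = ω d) {x y : F × ZMod 3} (h : Strand T Z ω x y) :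
    ω y = ω x := by
  obtain ⟨k, rfl⟩ := h
  exact step_zpow_inv hc k x

end strand

end Vale.Agent.P148.R2.H593
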